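import Vale.Agent.P022K.Iw.Deg

/-!
# P022K, block Iw: an order-free criterion for uniform groups, products
-/

set_option linter.all false

noncomputable section

namespace Vale.Agent.P022K.Iw

/-- a group with a filtration and a basis, without an order on the basis -/
structure Uo {Γ ι : Type} [Group Γ] (p : ℕ) (g : ι → Γ) (N : ℕ → Subgroup Γ) : Prop where
  nor : ∀ j, (N j).Normal
  top : ∀ γ, γ ∈ N 0
  anti : ∀ j, N (j + 1) ≤ N j
  pw : ∀ i j, g i ^ p ^ j ∈ N j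
  gen : ∀ j (S : Subgroup Γ), (∀ i, g i ^ p ^ j ∈ S) → N (j + 1) ≤ S → N j ≤ S
  com : ∀ j γ, ∀ δ ∈ N j, γ * δ * γ⁻¹ * δ⁻¹ ∈ N (j + 2)
  sep : ∀ j i, ∃ H : Subgroup Γ, N (j + 1) ≤ H ∧ (∀ k, k ≠ i → g k ^ p ^ j ∈ H) ∧ g i ^ p ^ j ∉ H

variable {Γ ι : Type} [Group Γ] {p : ℕ} {g : ι → Γ} {N : ℕ → Subgroup Γ} {l : List ι}

theorem cen_of {H : Subgroup Γ} [H.Normal] {δ : Γ} (h : ∀ γ, γ * δ * γ⁻¹ * δ⁻¹ ∈ H)
    (x : Γ ⧸ H) : Commute (δ : Γ ⧸ H) x := by
  obtain ⟨y, rfl⟩ := QuotientGroup.mk_surjective x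
  have h1 := (QuotientGroup.eq_one_iff _).2 (h y)
  rw [QuotientGroup.mk_mul, QuotientGroup.mk_mul, QuotientGroup.mk_mul, QuotientGroup.mk_inv,
    QuotientGroup.mk_inv, mul_inv_eq_one, mul_inv_eq_iff_eq_mul] at h1
  exact h1.symm

namespace Uo

theorem pow_mem (h : Uo p g N) (j : ℕ) {z : Γ} (hz : z ∈ N j) : z ^ p ∈ N (j + 1) := by
  have := h.nor (j + 1)
  let S : Subgroup Γ :=
    { carrier := {z | z ∈ N j ∧ (z : Γ ⧸ N (j + 1)) ^ p = 1}
      one_mem' := ⟨one_mem _, by simp⟩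
      mul_mem' := fun {a b} ha hb => ⟨mul_mem ha.1 hb.1, by
        rw [QuotientGroup.mk_mul, (cen_of (fun γ => h.anti _ (h.com j γ a ha.1)) _).mul_pow, ha.2,
          hb.2, one_mul]⟩
      inv_mem' := fun {a} ha => ⟨inv_mem ha.1, by rw [QuotientGroup.mk_inv, inv_pow, ha.2, inv_one]⟩ }
  refine (QuotientGroup.eq_one_iff _).1 ((QuotientGroup.mk_pow _ _ _).trans
    (h.gen j S (fun i => ⟨h.pw i j, ?_⟩) (fun γ hγ => ⟨h.anti j hγ, ?_⟩) hz).2)
  · rw [← QuotientGroup.mk_pow, ← pow_mul, ← pow_succ]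
    exact (QuotientGroup.eq_one_iff _).2 (h.pw i (j + 1))
  · rw [(QuotientGroup.eq_one_iff _).2 hγ, one_pow]

theorem mul_pow (h : Uo p g N) {j : ℕ} (u : Γ) {z : Γ} (hz : z ∈ N j) (n : ℕ) :
    (((u * z) ^ n : Γ) : Γ ⧸ N (j + 2)) = (u ^ n * z ^ n : Γ) := by
  have := h.nor (j + 2)
  rw [QuotientGroup.mk_pow, QuotientGroup.mk_mul, QuotientGroup.mk_mul, QuotientGroup.mk_pow,
    QuotientGroup.mk_pow, (cen_of (fun γ => h.com j γ z hz) _).symm.mul_pow]

theorem pow_cg (h : Uo p g N) {j : ℕ} {a b : Γ} (e : (a : Γ ⧸ N j) = b) :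
    ((a ^ p : Γ) : Γ ⧸ N (j + 1)) = (b ^ p : Γ) := by
  have h1 := QuotientGroup.eq.1 e
  have h2 := h.anti _ (QuotientGroup.eq.1 (h.mul_pow a h1 p).symm)
  rw [mul_inv_cancel_left] at h2
  refine QuotientGroup.eq.2 ?_
  have := mul_mem (h.pow_mem j h1) h2
  rwa [mul_inv_rev, mul_assoc, mul_inv_cancel_left] at this

theorem root (h : Uo p g N) (j : ℕ) {w : Γ} (hw : w ∈ N (j + 1)) :
    ∃ z ∈ N j, ((z ^ p : Γ) : Γ ⧸ N (j + 2)) = w := by
  have := h.nor (j + 2)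
  let S : Subgroup Γ :=
    { carrier := {w | ∃ z ∈ N j, ((z ^ p : Γ) : Γ ⧸ N (j + 2)) = w}
      one_mem' := ⟨1, one_mem _, by simp⟩
      mul_mem' := by
        rintro a b ⟨z, hz, e⟩ ⟨z', hz', e'⟩
        exact ⟨z * z', mul_mem hz hz', by
          rw [h.mul_pow z hz', QuotientGroup.mk_mul, QuotientGroup.mk_mul, e, e']⟩
      inv_mem' := by
        rintro a ⟨z, hz, e⟩
        exact ⟨z⁻¹, inv_mem hz, by rw [inv_pow, QuotientGroup.mk_inv, QuotientGroup.mk_inv, e]⟩ }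
  exact h.gen (j + 1) S (fun i => ⟨_, h.pw i j, by rw [← pow_mul, ← pow_succ]⟩)
    (fun γ hγ => ⟨1, one_mem _, by rw [one_pow, (QuotientGroup.eq_one_iff _).2 hγ]; rfl⟩) hw

theorem root2 (h : Uo p g N) {w : Γ} (hw : w ∈ N 2) :
    ∀ m, ∃ u : Γ, ((u ^ p ^ 2 : Γ) : Γ ⧸ N (m + 2)) = w
  | 0 => ⟨1, QuotientGroup.eq.2 (by simpa using hw)⟩
  | m + 1 => by
    have := h.nor (m + 3)
    obtain ⟨u, hu⟩ := root2 h hw m
    obtain ⟨y, hy, e⟩ := h.root (m + 1) (QuotientGroup.eq.1 hu)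
    obtain ⟨z, hz, e'⟩ := h.root m hy
    refine ⟨u * z, ?_⟩
    have h1 := (h.pow_cg (h.mul_pow u hz p)).trans (h.mul_pow (u ^ p) (h.pow_mem m hz) p)
    rw [pow_two, pow_mul, h1, QuotientGroup.mk_mul, h.pow_cg e', e, ← QuotientGroup.mk_mul,
      ← pow_mul, ← pow_two, mul_inv_cancel_left]

theorem mon_add (h : Uo p g N) (j : ℕ) (a c : ι → ℕ) : ∀ l : List ι,
    ((mon l g fun i => a i + p ^ j * c i : Γ) : Γ ⧸ N (j + 1)) =
      (mon l g a * mon l (fun i => g i ^ p ^ j) c : Γ)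
  | [] => by simp [mon]
  | k :: l => by
    have := h.nor (j + 1)
    have hc := cen_of (fun γ => h.anti _ (h.com j γ _ (Subgroup.pow_mem _ (h.pw k j) (c k))))
      (mon l g a : Γ)
    simp only [mon_cons, QuotientGroup.mk_mul, mon_add h j a c l, pow_add, pow_mul]
    rw [mul_assoc, ← mul_assoc _ ((mon l g a : Γ) : Γ ⧸ N (j + 1)), hc.eq]
    simp only [mul_assoc]

theorem ex (h : Uo p g N) (hp0 : p.Prime) (hl : l.Nodup) (hl' : ∀ i, i ∈ l) :
    ∀ (t : ℕ) (γ : Γ), ∃ a : ι → ℕ, (mon l g a)⁻¹ * γ ∈ N t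
  | 0, γ => ⟨0, h.top _⟩
  | t + 1, γ => by
    classical
    obtain ⟨a, ha⟩ := ex h hp0 hl hl' t γ
    have := h.nor (t + 1)
    let π := QuotientGroup.mk' (N (t + 1))
    let b : ι → Γ ⧸ N (t + 1) := fun i => π (g i ^ p ^ t)
    have hc : ∀ i x, Commute (b i) x := fun i =>
      cen_of fun γ => h.anti _ (h.com t γ _ (h.pw i t))
    have hb : ∀ i, b i ^ p = 1 := fun i => by
      rw [← map_pow, ← pow_mul, ← pow_succ]
      exact (QuotientGroup.eq_one_iff _).2 (h.pw i (t + 1))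
    have add : ∀ c c' : ι → ℕ, ∀ l : List ι, mon l b (c + c') = mon l b c * mon l b c' := by
      intro c c' l
      induction l with
      | nil => simp [mon]
      | cons k l ih =>
        rw [mon_cons, mon_cons, mon_cons, ih, Pi.add_apply, pow_add, mul_assoc, mul_assoc,
          ← mul_assoc (b k ^ c' k), ((hc k (mon l b c)).pow_left (c' k)).eq, mul_assoc]
    have nsm : ∀ (c : ι → ℕ) (n : ℕ), mon l b (n • c) = mon l b c ^ n := fun c n => by
      induction n with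
      | zero => simp [mon]
      | succ n ih => rw [succ_nsmul, add, ih, pow_succ]
    let S : Subgroup Γ :=
      { carrier := {δ | ∃ c, π δ = mon l b c}
        one_mem' := ⟨0, by simp [mon]⟩
        mul_mem' := by
          rintro x y ⟨c, e⟩ ⟨c', e'⟩
          exact ⟨c + c', by rw [map_mul, e, e', add]⟩
        inv_mem' := by
          rintro x ⟨c, e⟩
          refine ⟨(p - 1) • c, ?_⟩
          rw [map_inv, e, nsm, inv_eq_iff_mul_eq_one, ← pow_succ', Nat.sub_add_cancel hp0.one_le,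
            ← nsm, ← mon_mod hb]
          simp [mon] }
    obtain ⟨c, hcc⟩ := h.gen t S (fun i => ⟨Pi.single i 1, by
      have := mul_mon (b := b) i (pow_one _).symm (fun k => hc i _) (a := 0)
        (a' := Pi.single i 1) (by simp) (fun k hk => by simp [hk]) l hl (hl' i)
      rw [← this]
      simp [mon, b]⟩) (fun δ hδ => ⟨0, by
        rw [show π δ = 1 from (QuotientGroup.eq_one_iff _).2 hδ]; simp [mon]⟩) ha
    refine ⟨_, QuotientGroup.eq.1 ((h.mon_add t a c l).trans ?_)⟩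
    show π _ = π _
    rw [map_mul, map_mon π l (fun i => g i ^ p ^ t), ← hcc, ← map_mul, mul_inv_cancel_left]

theorem mon_split {H : Subgroup Γ} {b : ι → Γ} {c : ι → ℕ} {i : ι} (hb : ∀ k, k ≠ i → b k ∈ H) :
    ∀ l : List ι, l.Nodup → i ∈ l → mon l b c ∈ H → b i ^ c i ∈ H
  | [], _, h, _ => by simp at h
  | k :: l, hl, h, hm => by
    rw [List.nodup_cons] at hl
    rw [mon_cons] at hm
    by_cases e : k = i
    · subst e
      refine (H.mul_mem_cancel_right (H.list_prod_mem fun x hx => ?_)).1 hm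
      obtain ⟨j, hj, rfl⟩ := List.mem_map.1 hx
      exact H.pow_mem (hb j fun e => hl.1 (e ▸ hj)) _
    · exact mon_split hb l hl.2 ((List.mem_cons.1 h).resolve_left (Ne.symm e))
        ((H.mul_mem_cancel_left (H.pow_mem (hb k e) _)).1 hm)

theorem inj (h : Uo p g N) (hp0 : p.Prime) (hl : l.Nodup) (hl' : ∀ i, i ∈ l) :
    ∀ (t : ℕ) (a a' : ι → ℕ), (mon l g a)⁻¹ * mon l g a' ∈ N t → ∀ i, a i ≡ a' i [MOD p ^ t]
  | 0, a, a', _, i => by rw [pow_zero]; exact Nat.modEq_one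
  | t + 1, a, a', e, i => by
    have := h.nor (t + 1)
    have h1 : ∀ k, ∃ c, a k + p ^ t * c ≡ a' k [MOD p ^ (t + 1)] := fun k => by
      have h2 : a k ≡ a' k + p ^ (t + 1) * a k [MOD p ^ t] :=
        (inj h hp0 hl hl' t a a' (h.anti t e) k).trans (by
          rw [pow_succ, mul_assoc]; exact (Nat.add_mul_mod_self_left _ _ _).symm)
      have h3 : a k ≤ a' k + p ^ (t + 1) * a k :=
        (Nat.le_mul_of_pos_left _ (pow_pos hp0.pos _)).trans (Nat.le_add_left _ _)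
      obtain ⟨c, hc⟩ := (Nat.modEq_iff_dvd' h3).1 h2
      refine ⟨c, ?_⟩
      rw [← hc, Nat.add_sub_cancel' h3]
      exact Nat.add_mul_mod_self_left _ _ _
    choose c hc using h1
    have h4 : ((mon l g fun k => a k + p ^ t * c k : Γ) : Γ ⧸ N (t + 1)) = (mon l g a' : Γ) := by
      have hb : ∀ k, QuotientGroup.mk' (N (t + 1)) (g k) ^ p ^ (t + 1) = 1 := fun k => by
        rw [← map_pow]; exact (QuotientGroup.eq_one_iff _).2 (h.pw k (t + 1))
      show QuotientGroup.mk' _ _ = QuotientGroup.mk' _ _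
      rw [map_mon, map_mon, ← mon_mod hb, ← mon_mod hb l a']
      exact mon_congr _ fun k _ => hc k
    rw [h.mon_add, ← QuotientGroup.eq.2 e, QuotientGroup.mk_mul, mul_eq_left,
      QuotientGroup.eq_one_iff] at h4
    obtain ⟨H, k1, k2, k3⟩ := h.sep t i
    have h5 := mon_split k2 l hl (hl' i) (k1 h4)
    have h6 : p ∣ c i := by
      by_contra hn
      have h7 : (g i ^ p ^ t) ^ p ∈ H := k1 (by rw [← pow_mul, ← pow_succ]; exact h.pw i _)
      obtain ⟨m, -, hm⟩ := Nat.exists_mul_mod_eq_one_of_coprime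
        ((hp0.coprime_iff_not_dvd.2 hn).symm) hp0.one_lt
      refine k3 ?_
      have h8 := H.pow_mem h5 m
      rw [← pow_mul, ← Nat.div_add_mod (c i * m) p, hm, pow_succ, pow_mul] at h8
      exact (H.mul_mem_cancel_left (H.pow_mem h7 _)).1 h8
    obtain ⟨m, hm⟩ := h6
    refine Nat.ModEq.trans ?_ (hc i)
    rw [hm, ← mul_assoc, ← pow_succ]
    exact (Nat.add_mul_mod_self_left _ _ _).symm

/-- **the criterion** -/
theorem un (h : Uo p g N) (hp0 : p.Prime) (hl : l.Nodup) (hl' : ∀ i, i ∈ l) : Un l p g N :=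
  ⟨hl, hl', h.nor, antitone_nat_of_succ_le h.anti, h.pw, h.ex hp0 hl hl', h.inj hp0 hl hl',
    fun j γ δ => (h.root2 (h.com 0 γ δ (h.top δ)) j).imp fun _ hu =>
      h.anti _ (h.anti _ (QuotientGroup.eq.1 hu))⟩

/-- change of the index set -/
theorem reindex (h : Uo p g N) {κ : Type} (e : κ ≃ ι) : Uo p (g ∘ e) N :=
  ⟨h.nor, h.top, h.anti, fun i => h.pw (e i), fun j S h1 => h.gen j S fun i => by
    simpa using h1 (e.symm i), h.com, fun j i => (h.sep j (e i)).imp fun _ k =>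
      ⟨k.1, fun k' hk => k.2.1 _ (e.injective.ne hk), k.2.2⟩⟩

/-- products -/
theorem pi {δ : Type} [Finite δ] [DecidableEq δ] {G κ : δ → Type} [∀ v, Group (G v)]
    {g : ∀ v, κ v → G v} {N : ∀ v, ℕ → Subgroup (G v)} (h : ∀ v, Uo p (g v) (N v)) :
    Uo p (fun x : Σ v, κ v => Pi.mulSingle x.1 (g x.1 x.2))
      fun j => Subgroup.pi Set.univ fun v => N v j where
  nor j := ⟨fun x hx y v _ => ((h v).nor j).conj_mem _ (hx v trivial) _⟩
  top γ v _ := (h v).top _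
  anti j x hx v _ := (h v).anti j (hx v trivial)
  pw x j := by
    rw [← Pi.mulSingle_pow]
    exact (Subgroup.mulSingle_mem_pi _ _).2 fun _ => (h _).pw _ _
  gen j S h1 h2 := (Subgroup.pi_le_iff.2 fun v => Subgroup.map_le_iff_le_comap.2
    ((h v).gen j _ (fun i => by simpa [Pi.mulSingle_pow] using h1 ⟨v, i⟩) fun γ hγ =>
      h2 ((Subgroup.mulSingle_mem_pi _ _).2 fun _ => hγ)))
  com j γ x hx v _ := (h v).com j _ _ (hx v trivial)
  sep j x := by
    obtain ⟨H, k1, k2, k3⟩ := (h x.1).sep j x.2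
    refine ⟨H.comap (Pi.evalMonoidHom G x.1), fun y hy => k1 (hy x.1 trivial), fun y hy => ?_,
      by simpa using k3⟩
    obtain ⟨v, i⟩ := x
    obtain ⟨v', i'⟩ := y
    by_cases e : v = v'
    · subst e
      simpa using k2 i' fun e => hy (by rw [e])
    · simp [Pi.mulSingle_eq_of_ne e]

theorem prod (h : Uo p g N) {Γ' ι' : Type} [Group Γ'] {g' : ι' → Γ'} {N' : ℕ → Subgroup Γ'}
    (h' : Uo p g' N') :
    Uo p (Sum.elim (fun i => ((g i, 1) : Γ × Γ')) fun i => (1, g' i)) fun j => (N j).prod (N' j) where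
  nor j := by have := h.nor j; have := h'.nor j; infer_instance
  top γ := ⟨h.top _, h'.top _⟩
  anti j := Subgroup.prod_mono (h.anti j) (h'.anti j)
  pw x j := by
    rcases x with i | i
    · exact ⟨h.pw i j, by simp⟩
    · exact ⟨by simp, h'.pw i j⟩
  gen j S h1 h2 := Subgroup.prod_le_iff.2
    ⟨Subgroup.map_le_iff_le_comap.2 (h.gen j _ (fun i => by simpa using h1 (Sum.inl i))
      fun γ hγ => h2 ⟨hγ, one_mem _⟩),
    Subgroup.map_le_iff_le_comap.2 (h'.gen j _ (fun i => by simpa using h1 (Sum.inr i))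
      fun γ hγ => h2 ⟨one_mem _, hγ⟩)⟩
  com j γ x hx := ⟨h.com j _ _ hx.1, h'.com j _ _ hx.2⟩
  sep j x := by
    rcases x with i | i
    · obtain ⟨H, k1, k2, k3⟩ := h.sep j i
      refine ⟨H.comap (MonoidHom.fst _ _), fun y hy => k1 hy.1, fun y hy => ?_, by simpa using k3⟩
      rcases y with k | k
      · simpa using k2 k fun e => hy (by rw [e])
      · simp
    · obtain ⟨H, k1, k2, k3⟩ := h'.sep j i
      refine ⟨H.comap (MonoidHom.snd _ _), fun y hy => k1 hy.2, fun y hy => ?_, by simpa using k3⟩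
      rcases y with k | k
      · simp
      · simpa using k2 k fun e => hy (by rw [e])

end Uo

/-- the multiples of `p ^ j` -/
def Nz (p j : ℕ) : Subgroup (Multiplicative ℤ) :=
  Subgroup.zpowers (Multiplicative.ofAdd ((p : ℤ) ^ j))

theorem mem_Nz {j : ℕ} {x : Multiplicative ℤ} : x ∈ Nz p j ↔ (p : ℤ) ^ j ∣ x.toAdd := by
  rw [Nz, Subgroup.mem_zpowers_iff]
  refine ⟨fun ⟨k, e⟩ => ⟨k, by rw [← e]; simp [mul_comm]⟩, fun ⟨k, e⟩ => ⟨k, ?_⟩⟩
  rw [← ofAdd_zsmul, smul_eq_mul, mul_comm, ← e, ofAdd_toAdd]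

/-- the integers -/
theorem uo_int (hp : p.Prime) : Uo p (fun _ : Unit => Multiplicative.ofAdd (1 : ℤ)) (Nz p) where
  nor j := inferInstance
  top γ := mem_Nz.2 (by simp)
  anti j x hx := mem_Nz.2 ((pow_dvd_pow _ (Nat.le_succ j)).trans (mem_Nz.1 hx))
  pw _ j := mem_Nz.2 (by simp)
  gen j S h1 _ := Subgroup.zpowers_le.2 (by simpa [← ofAdd_nsmul] using h1 ())
  com j γ δ _ := by simp [mul_comm γ]
  sep j i := ⟨Nz p (j + 1), le_rfl, fun k hk => absurd rfl hk, fun h => by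
    have h1 := mem_Nz.1 h
    rw [toAdd_pow, toAdd_ofAdd, nsmul_one, Nat.cast_pow,
      pow_dvd_pow_iff (by exact_mod_cast hp.ne_zero)
        (by rw [Int.isUnit_iff_natAbs_eq, Int.natAbs_natCast]; exact hp.ne_one)] at h1
    omega⟩

end Vale.Agent.P022K.Iw
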