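import Vale.Agent.P022K.Iw.Grp
import Vale.Agent.P022K.WB.Noe

/-!
# P022K, block Iw: the congruence subgroup of level `p ^ (q + 2)` modulo the centre is uniform
-/

set_option linter.all false

noncomputable section

namespace Vale.Agent.P022K.Iw

open Vale.Agent.P022K.WB

variable {p : ℕ} [Fact p.Prime] {q : ℕ}

theorem Kn_ent {n : ℕ} {k : G2 p} (h : k ∈ Kn p n) : ‖k 0 0 - 1‖ ≤ rad p n ∧ ‖k 0 1‖ ≤ rad p n ∧
    ‖k 1 0‖ ≤ rad p n ∧ ‖k 1 1 - 1‖ ≤ rad p n :=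
  ⟨by simpa using h.1 0 0, by simpa using h.1 0 1, by simpa using h.1 1 0, by simpa using h.1 1 1⟩

theorem nrm_one {n : ℕ} (hn : 0 < n) {a : ℚ_[p]} (h : ‖a - 1‖ ≤ rad p n) : ‖a‖ = 1 :=
  norm_of_near (h.trans_lt (rad_lt_one hn))

theorem det_one {k : G2 p} (h : k ∈ Kn p (q + 2)) : ‖k 0 0 * k 1 1 - k 0 1 * k 1 0‖ = 1 := by
  obtain ⟨a1, a2, a3, a4⟩ := Kn_ent h
  refine nrm_one (Nat.succ_pos (q + 1)) ?_
  rw [show k 0 0 * k 1 1 - k 0 1 * k 1 0 - 1 =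
    (k 0 0 - 1) * k 1 1 + (k 1 1 - 1) - k 0 1 * k 1 0 by ring]
  exact nsub (nadd (nmul2 a1 (nrm_one (Nat.succ_pos (q + 1)) a4).le) a4) (nmul2 a2 (a3.trans (rad_le_one _)))

variable (p q) in
/-- congruence conditions modulo the centre -/
def S3 (a b c : ℕ) (h : c ≤ a + b) : Subgroup (G2 p) where
  carrier := {k | k ∈ Kn p (q + 2) ∧ ‖k 0 1‖ ≤ rad p a ∧ ‖k 1 0‖ ≤ rad p b ∧ ‖k 0 0 - k 1 1‖ ≤ rad p c}
  one_mem' := ⟨one_mem _, by simp [(rad_pos _).le]⟩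
  mul_mem' := fun {x y} hx hy => by
    have x0 := Kn_en hx.1
    have y0 := Kn_en hy.1
    refine ⟨mul_mem hx.1 hy.1, ?_, ?_, ?_⟩
    · rw [mul_ap]; exact nadd (nmul1 (x0 0 0) hy.2.1) (nmul2 hx.2.1 (y0 1 1))
    · rw [mul_ap]; exact nadd (nmul2 hx.2.2.1 (y0 0 0)) (nmul1 (x0 1 1) hy.2.2.1)
    · rw [mul_ap, mul_ap, show x 0 0 * y 0 0 + x 0 1 * y 1 0 - (x 1 0 * y 0 1 + x 1 1 * y 1 1) =
        (x 0 0 - x 1 1) * y 0 0 + x 1 1 * (y 0 0 - y 1 1) + (x 0 1 * y 1 0 - y 0 1 * x 1 0) by ring]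
      refine nadd (nadd (nmul2 hx.2.2.2 (y0 0 0)) (nmul1 (x0 1 1) hy.2.2.2))
        ((nsub (nmul hx.2.1 hy.2.2.1) (nmul hy.2.1 hx.2.2.1)).trans ?_)
      rw [← rad_add]
      exact rad_le h
  inv_mem' := fun {x} hx => by
    have h1 : ‖(x 0 0 * x 1 1 - x 0 1 * x 1 0)⁻¹‖ ≤ 1 := by rw [norm_inv, det_one hx.1, inv_one]
    refine ⟨inv_mem hx.1, ?_⟩
    simp only [inv_val, Matrix.smul_apply, smul_eq_mul, Matrix.of_apply,
      Matrix.cons_val', Matrix.cons_val_zero, Matrix.cons_val_one, Matrix.cons_val_fin_one]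
    refine ⟨nmul1 h1 (by rw [norm_neg]; exact hx.2.1), nmul1 h1 (by rw [norm_neg]; exact hx.2.2.1),
      ?_⟩
    rw [← mul_sub]
    exact nmul1 h1 (by rw [norm_sub_rev]; exact hx.2.2.2)

theorem S3_le {a b c a' b' c' : ℕ} {h : c ≤ a + b} {h' : c' ≤ a' + b'} (h1 : a' ≤ a) (h2 : b' ≤ b)
    (h3 : c' ≤ c) : S3 p q a b c h ≤ S3 p q a' b' c' h' := fun _ hx =>
  ⟨hx.1, hx.2.1.trans (rad_le h1), hx.2.2.1.trans (rad_le h2), hx.2.2.2.trans (rad_le h3)⟩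

variable (p q) in
/-- the elements of `K(p ^ (q + 2))` which lie in `K(p ^ (m + (q + 2)))` times the centre -/
def NG (m : ℕ) : Subgroup (G2 p) := S3 p q (m + (q + 2)) (m + (q + 2)) (m + (q + 2)) (Nat.le_add_right _ _)

theorem Kn_le_NG (m : ℕ) : Kn p (m + (q + 2)) ≤ NG p q m := fun k hk => by
  obtain ⟨a1, a2, a3, a4⟩ := Kn_ent hk
  refine ⟨Kn_anti (Nat.le_add_left _ _) hk, a2, a3, ?_⟩
  rw [← sub_sub_sub_cancel_right _ _ 1]
  exact nsub a1 a4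

theorem dd_Kn {n : ℕ} (hn : 0 < n) {a d : ℚ_[p]ˣ} (ha : ‖(a : ℚ_[p]) - 1‖ ≤ rad p n)
    (hd : ‖(d : ℚ_[p]) - 1‖ ≤ rad p n) : dd a d ∈ Kn p n := by
  refine ⟨fun i j => ?_, fun i j => ?_⟩
  · fin_cases i <;> fin_cases j <;> simp [ha, hd, (rad_pos n).le]
  · rw [← dd_inv]
    fin_cases i <;> fin_cases j <;> simp [nrm_one hn ha, nrm_one hn hd]

theorem dd_NG {m : ℕ} {d : ℚ_[p]ˣ} (hd : ‖(d : ℚ_[p]) - 1‖ ≤ rad p (q + 2)) : dd d d ∈ NG p q m :=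
  ⟨dd_Kn (Nat.succ_pos (q + 1)) hd hd, by simp [(rad_pos _).le]⟩

theorem NG_fac {m : ℕ} {k : G2 p} (h : k ∈ NG p q m) : ∃ d : ℚ_[p]ˣ, ‖(d : ℚ_[p]) - 1‖ ≤ rad p (q + 2) ∧
    ∃ k' ∈ Kn p (m + (q + 2)), k = dd d d * k' := by
  have a4 := (Kn_ent h.1).2.2.2
  have h1 := nrm_one (Nat.succ_pos (q + 1)) a4
  have h0 : k 1 1 ≠ 0 := norm_pos_iff.1 (h1 ▸ one_pos)
  have h2 : ‖(k 1 1)⁻¹‖ ≤ 1 := by rw [norm_inv, h1, inv_one]
  refine ⟨Units.mk0 _ h0, a4, (dd (Units.mk0 _ h0) (Units.mk0 _ h0))⁻¹ * k, ⟨fun i j => ?_,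
    (mul_mem (inv_mem (dd_Kn (Nat.succ_pos (q + 1)) a4 a4)) h.1).2⟩, by group⟩
  rw [← dd_inv, Matrix.sub_apply, mul_ap]
  fin_cases i <;> fin_cases j
  · have : (k 1 1)⁻¹ * k 0 0 - 1 = (k 1 1)⁻¹ * (k 0 0 - k 1 1) := by field_simp
    simpa [this] using nmul1 h2 h.2.2.2
  · simpa using nmul1 h2 h.2.1
  · simpa using nmul1 h2 h.2.2.1
  · simp [h0, (rad_pos _).le]

/-- the description by the centre -/
theorem mem_NG {m : ℕ} {k : G2 p} :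
    k ∈ NG p q m ↔ k ∈ Kn p (q + 2) ∧ ∃ z : ℚ_[p]ˣ, ∃ k' ∈ Kn p (m + (q + 2)), k = dd z z * k' := by
  refine ⟨fun h => ⟨h.1, (NG_fac h).imp fun _ h => h.2⟩, ?_⟩
  rintro ⟨h, z, k', hk', rfl⟩
  refine mul_mem (dd_NG ?_) (Kn_le_NG m hk')
  have := mul_mem h (inv_mem (Kn_anti (Nat.le_add_left (q + 2) m) hk'))
  rw [mul_inv_cancel_right] at this
  simpa using (Kn_ent this).1

theorem nn_pow (b : ℚ_[p]) (n : ℕ) : nn b ^ n = nn ((n : ℚ_[p]) * b) := by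
  induction n with
  | zero => simp
  | succ n ih => rw [pow_succ, ih, ← nn_add, Nat.cast_succ, add_mul, one_mul]

theorem nl_pow (b : ℚ_[p]) (n : ℕ) : nl b ^ n = nl ((n : ℚ_[p]) * b) := by
  induction n with
  | zero => simp
  | succ n ih => rw [pow_succ, ih, ← nl_add, Nat.cast_succ, add_mul, one_mul]

theorem dd_pow (a : ℚ_[p]ˣ) (n : ℕ) : dd a 1 ^ n = dd (a ^ n) 1 := by
  induction n with
  | zero => simp
  | succ n ih => rw [pow_succ, ih, ← dd_mul, one_mul, pow_succ]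

theorem digit {n : ℕ} {b : ℚ_[p]} (h : ‖b‖ ≤ rad p n) :
    ∃ c : ℕ, ‖b - c * (p : ℚ_[p]) ^ n‖ ≤ rad p (n + 1) := by
  have h0 : (p : ℚ_[p]) ^ n ≠ 0 := pow_ne_zero _ (p_ne p)
  obtain ⟨x, hx⟩ := exists_digit (b := b / (p : ℚ_[p]) ^ n) (by
    rw [norm_div, norm_pow_p, div_le_one (rad_pos n)]; exact h)
  refine ⟨x.val, ?_⟩
  have := nmul (norm_pow_p (p := p) n).le (norm_le_inv hx)
  rwa [mul_sub, mul_div_cancel₀ _ h0, mul_comm, rad, ← pow_succ] at this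

theorem u_ne : (1 + (p : ℚ_[p]) ^ (q + 2)) ≠ 0 := by
  have : ‖1 + (p : ℚ_[p]) ^ (q + 2)‖ = 1 := nrm_one (Nat.succ_pos (q + 1)) (by rw [add_sub_cancel_left, norm_pow_p])
  exact norm_pos_iff.1 (this ▸ one_pos)

variable (p q) in
/-- the unit `1 + p ^ (q + 2)` -/
def uu : ℚ_[p]ˣ := Units.mk0 _ (u_ne (q := q))

theorem uu_pow (j : ℕ) :
    ‖((uu p q ^ p ^ j : ℚ_[p]ˣ) : ℚ_[p]) - 1 - (p : ℚ_[p]) ^ (j + (q + 2))‖ ≤ rad p (j + (q + 2) + 1) := by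
  have hp : p.Prime := Fact.out
  obtain ⟨y, hy⟩ := ZMod.exists_one_add_mul_pow_prime_pow_eq (R := ℕ) (u := p ^ (q + 2)) (v := p)
    hp (dvd_pow_self p (Nat.succ_ne_zero _)) (by
      rw [Nat.cast_id, ← pow_succ', ← pow_succ, ← pow_mul]
      exact pow_dvd_pow _ (by have := Nat.mul_le_mul_left (q + 2) hp.two_le; omega)) 1 j
  have e := congrArg (Nat.cast : ℕ → ℚ_[p]) hy
  push_cast at e
  rw [Units.val_pow_eq_pow_val, uu, Units.val_mk0, show (1 + (p : ℚ_[p]) ^ (q + 2)) ^ p ^ j - 1 -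
    (p : ℚ_[p]) ^ (j + (q + 2)) = y * (p : ℚ_[p]) ^ (j + (q + 2) + 1) by linear_combination e]
  exact nmul1 (norm_nat y) (norm_pow_p _).le

theorem rad_lt (n : ℕ) : rad p (n + 1) < rad p n := by
  rw [rad, pow_succ]
  exact mul_lt_of_lt_one_right (rad_pos n) pinv_lt

theorem uu_norm (j : ℕ) : ‖((uu p q ^ p ^ j : ℚ_[p]ˣ) : ℚ_[p]) - 1‖ = rad p (j + (q + 2)) := by
  have h1 := (uu_pow (p := p) (q := q) j).trans_lt (rad_lt (j + (q + 2)))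
  rw [← norm_pow_p] at h1
  have := IsUltrametricDist.norm_add_eq_max_of_norm_ne_norm h1.ne
  rwa [sub_add_cancel, max_eq_right h1.le, norm_pow_p] at this

theorem pow_lin {n : ℕ} (hn : 0 < n) {w P : ℚ_[p]} (hP : ‖P‖ ≤ rad p n)
    (h : ‖w - 1 - P‖ ≤ rad p (n + 1)) (c : ℕ) : ‖w ^ c - 1 - c * P‖ ≤ rad p (n + 1) := by
  have hw : ‖w‖ = 1 := nrm_one hn (by
    simpa using nadd (h.trans (rad_le (Nat.le_succ n))) hP)
  induction c with
  | zero => simp [(rad_pos _).le]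
  | succ c ih =>
    rw [show w ^ (c + 1) - 1 - ((c + 1 : ℕ) : ℚ_[p]) * P =
      w ^ c * (w - 1 - P) + (w ^ c - 1 - c * P) * (1 + P) + c * (P * P) by push_cast; ring]
    refine nadd (nadd (nmul1 (by rw [norm_pow, hw, one_pow]) h)
      (nmul2 ih (nadd (by simp) (hP.trans (rad_le_one n))))) (nmul1 (norm_nat c)
        ((nmul hP hP).trans ?_))
    rw [← rad_add]
    exact rad_le (by omega)

variable (p q) in
/-- the three generators -/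
def gG : Fin 3 → G2 p := ![nn ((p : ℚ_[p]) ^ (q + 2)), dd (uu p q) 1, nl ((p : ℚ_[p]) ^ (q + 2))]

theorem gG0 (j : ℕ) : gG p q 0 ^ p ^ j = nn ((p : ℚ_[p]) ^ (j + (q + 2))) := by
  rw [pow_add, ← Nat.cast_pow, ← nn_pow]; rfl

theorem gG1 (j : ℕ) : gG p q 1 ^ p ^ j = dd (uu p q ^ p ^ j) 1 := dd_pow _ _

theorem gG2 (j : ℕ) : gG p q 2 ^ p ^ j = nl ((p : ℚ_[p]) ^ (j + (q + 2))) := by
  rw [pow_add, ← Nat.cast_pow, ← nl_pow]; rfl

theorem gG_pow (i : Fin 3) (j : ℕ) : gG p q i ^ p ^ j ∈ Kn p (j + (q + 2)) := by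
  fin_cases i
  · exact (gG0 (p := p) (q := q) j).symm ▸ nn_Kn (norm_pow_p _).le
  · exact (gG1 (p := p) (q := q) j).symm ▸ dd_Kn (by omega) (uu_norm j).le (by simp [(rad_pos _).le])
  · exact (gG2 (p := p) (q := q) j).symm ▸ nl_Kn (norm_pow_p _).le

theorem gG_mem (i : Fin 3) : gG p q i ∈ Kn p (q + 2) := by simpa using gG_pow (p := p) (q := q) i 0

theorem gen_G (j : ℕ) (S : Subgroup (G2 p)) (h1 : ∀ i, gG p q i ^ p ^ j ∈ S)
    (h2 : NG p q (j + 1) ≤ S) : NG p q j ≤ S := by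
  intro k hk
  obtain ⟨d, hd, k, h, rfl⟩ := NG_fac hk
  refine mul_mem (h2 (dd_NG hd)) ?_
  have h3 : Kn p (j + (q + 2) + 1) ≤ S := (Kn_anti (by omega)).trans ((Kn_le_NG (j + 1)).trans h2)
  have hn : ∀ b, ‖b‖ ≤ rad p (j + (q + 2)) → nn b ∈ S := fun b hb => by
    obtain ⟨c, hc⟩ := digit hb
    rw [← sub_add_cancel b (c * (p : ℚ_[p]) ^ (j + (q + 2))), nn_add, ← nn_pow, ← gG0]
    exact mul_mem (h3 (nn_Kn hc)) (pow_mem (h1 0) c)
  have hl : ∀ b, ‖b‖ ≤ rad p (j + (q + 2)) → nl b ∈ S := fun b hb => by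
    obtain ⟨c, hc⟩ := digit hb
    rw [← sub_add_cancel b (c * (p : ℚ_[p]) ^ (j + (q + 2))), nl_add, ← nl_pow, ← gG2]
    exact mul_mem (h3 (nl_Kn hc)) (pow_mem (h1 2) c)
  have hd : ∀ a : ℚ_[p]ˣ, ‖(a : ℚ_[p]) - 1‖ ≤ rad p (j + (q + 2)) → dd a 1 ∈ S := fun a ha => by
    obtain ⟨c, hc⟩ := digit ha
    have h4 := pow_lin (by omega) (norm_pow_p (j + (q + 2))).le (uu_pow (p := p) (q := q) j) c
    set w := uu p q ^ p ^ j with hw
    have h5 : ‖(w : ℚ_[p])‖ = 1 := nrm_one (by omega) (uu_norm j).le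
    rw [← inv_mul_cancel_right a (w ^ c), ← one_mul (1 : ℚ_[p]ˣ), dd_mul, ← dd_pow, hw, ← gG1]
    refine mul_mem (h3 (dd_Kn (by omega) ?_ (by simp [(rad_pos _).le]))) (pow_mem (h1 1) c)
    have e : ((a * (w ^ c)⁻¹ : ℚ_[p]ˣ) : ℚ_[p]) - 1 = ((w : ℚ_[p]) ^ c)⁻¹ *
        ((a - 1 - c * (p : ℚ_[p]) ^ (j + (q + 2))) - (w ^ c - 1 - c * (p : ℚ_[p]) ^ (j + (q + 2)))) := by
      rw [Units.val_mul, Units.val_inv_eq_inv_val, Units.val_pow_eq_pow_val]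
      field_simp
      ring
    rw [← hw, e]
    exact nmul1 (by rw [norm_inv, norm_pow, h5, one_pow, inv_one]) (nsub hc h4)
  obtain ⟨b, hb, -, c, -, hc, rfl⟩ := I1_fac (Kn_le_I1 (by omega) h)
  have h6 : ‖c‖ ≤ rad p (j + (q + 2)) := hc.le.trans (Kn_ent h).2.2.1
  have h7 : b ∈ Kn p (j + (q + 2)) := by
    simpa using mul_mem h (inv_mem (nl_Kn h6))
  refine mul_mem ?_ (hl c h6)
  obtain ⟨x, a, e, rfl⟩ := BB_eq hb
  obtain ⟨a1, a2, -, a4⟩ := Kn_ent h7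
  simp only [mul_ap, nn_val, dd_val, Matrix.of_apply, Matrix.cons_val', Matrix.cons_val_zero,
    Matrix.cons_val_one, Matrix.cons_val_fin_one, one_mul, mul_zero, add_zero, zero_add,
    zero_mul] at a1 a2 a4
  have h8 := nrm_one (by omega) a4
  rw [norm_mul, h8, mul_one] at a2
  refine mul_mem (hn x a2) ?_
  rw [← inv_mul_cancel_right a e, ← one_mul e, ← mul_assoc, dd_mul, mul_one]
  refine mul_mem (hd _ ?_) (h2 (dd_NG (a4.trans (rad_le (by omega)))))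
  have e2 : ((a * (1 * e)⁻¹ : ℚ_[p]ˣ) : ℚ_[p]) - 1 = (e : ℚ_[p])⁻¹ * ((a - 1) - (e - 1)) := by
    rw [one_mul, Units.val_mul, Units.val_inv_eq_inv_val]
    field_simp
    ring
  rw [e2]
  exact nmul1 (by rw [norm_inv, h8, inv_one]) (nsub a1 a4)

theorem sep_G (j : ℕ) (i : Fin 3) : ∃ H : Subgroup (G2 p), NG p q (j + 1) ≤ H ∧
    (∀ k, k ≠ i → gG p q k ^ p ^ j ∈ H) ∧ gG p q i ^ p ^ j ∉ H := by
  have hm := fun k => Kn_le_NG j (gG_pow (p := p) (q := q) k j)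
  have h0 := (rad_pos (p := p) (j + (q + 2) + 1)).le
  have hlt := (rad_lt (p := p) (j + (q + 2))).not_ge
  fin_cases i
  · refine ⟨S3 p q (j + (q + 2) + 1) (j + (q + 2)) (j + (q + 2)) (by omega), S3_le (by omega) (by omega) (by omega),
      fun k hk => ⟨(hm k).1, ?_, (hm k).2.2⟩, fun h => hlt ?_⟩
    · fin_cases k
      · exact absurd rfl hk
      · exact (gG1 (p := p) (q := q) j).symm ▸ by simpa using h0
      · exact (gG2 (p := p) (q := q) j).symm ▸ by simpa using h0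
    · have := h.2.1
      rw [show gG p q ⟨0, by omega⟩ = gG p q 0 from rfl, gG0] at this
      rwa [← norm_pow_p (j + (q + 2))]
  · refine ⟨S3 p q (j + (q + 2)) (j + (q + 2)) (j + (q + 2) + 1) (by omega), S3_le (by omega) (by omega) (by omega),
      fun k hk => ⟨(hm k).1, (hm k).2.1, (hm k).2.2.1, ?_⟩, fun h => hlt ?_⟩
    · fin_cases k
      · exact (gG0 (p := p) (q := q) j).symm ▸ by simpa using h0
      · exact absurd rfl hk
      · exact (gG2 (p := p) (q := q) j).symm ▸ by simpa using h0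
    · have := h.2.2.2
      rw [show gG p q ⟨1, by omega⟩ = gG p q 1 from rfl, gG1] at this
      rwa [← uu_norm j]
  · refine ⟨S3 p q (j + (q + 2)) (j + (q + 2) + 1) (j + (q + 2)) (by omega), S3_le (by omega) (by omega) (by omega),
      fun k hk => ⟨(hm k).1, (hm k).2.1, ?_, (hm k).2.2.2⟩, fun h => hlt ?_⟩
    · fin_cases k
      · exact (gG0 (p := p) (q := q) j).symm ▸ by simpa using h0
      · exact (gG1 (p := p) (q := q) j).symm ▸ by simpa using h0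
      · exact absurd rfl hk
    · have := h.2.2.1
      rw [show gG p q ⟨2, by omega⟩ = gG p q 2 from rfl, gG2] at this
      rwa [← norm_pow_p (j + (q + 2))]

variable (p q) in
/-- the generators, in `K(p ^ (q + 2))` -/
def gK (i : Fin 3) : Kn p (q + 2) := ⟨gG p q i, gG_mem i⟩

variable (p q) in
/-- the filtration of `K(p ^ (q + 2))` -/
def NK (m : ℕ) : Subgroup (Kn p (q + 2)) := (NG p q m).subgroupOf (Kn p (q + 2))

theorem mem_NK {m : ℕ} {k : Kn p (q + 2)} :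
    k ∈ NK p q m ↔ ∃ z : ℚ_[p]ˣ, ∃ k' ∈ Kn p (m + (q + 2)), k.1 = dd z z * k' :=
  mem_NG.trans (and_iff_right k.2)

/-- **`K(p ^ (q + 2))` modulo the centre is uniform of dimension three** -/
theorem uo_K : Uo p (gK p q) (NK p q) where
  nor j := ⟨fun x hx y => by
    obtain ⟨z, k, hk, e⟩ := mem_NK.1 hx
    refine mem_NK.2 ⟨z, _, Kn_conj (inv_mem (K0_of y.2)) hk, ?_⟩
    rw [Subgroup.coe_mul, Subgroup.coe_mul, e, inv_inv, ← mul_assoc, ← dd_comm]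
    simp only [mul_assoc, Subgroup.coe_inv]⟩
  top γ := Kn_le_NG 0 (by rw [zero_add]; exact γ.2)
  anti j x hx := (show NG p q (j + 1) ≤ NG p q j from S3_le (by omega) (by omega) (by omega)) hx
  pw i j := Kn_le_NG j (gG_pow i j)
  gen j S h1 h2 x hx := by
    obtain ⟨y, hy, e⟩ := gen_G j (S.map (Kn p (q + 2)).subtype) (fun i => ⟨_, h1 i, rfl⟩)
      (fun k hk => ⟨⟨k, hk.1⟩, h2 hk, rfl⟩) hx
    rwa [← Subtype.ext e]
  com j γ x hx := by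
    obtain ⟨z, k, hk, e⟩ := mem_NK.1 hx
    refine Kn_le_NG _ ?_
    have := Kn_anti (show j + 2 + (q + 2) ≤ _ by omega) (comm_Kn γ.2 hk)
    convert this using 1
    simp only [Subgroup.coe_mul, Subgroup.coe_inv, Subgroup.coe_subtype, e]
    rw [← mul_assoc, ← dd_comm z γ.1, dd_comm z k, mul_assoc (dd z z), mul_assoc (dd z z),
      dd_comm z]
    group
  sep j i := by
    obtain ⟨H, k1, k2, k3⟩ := sep_G (p := p) (q := q) j i
    exact ⟨H.subgroupOf _, fun x hx => k1 hx, k2, k3⟩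

end Vale.Agent.P022K.Iw
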