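import Mathlib

/-!
# P022K, block Iw: the completed group ring of a uniform group. Definitions.
-/

set_option linter.all false

noncomputable section

namespace Vale.Agent.P022K.Iw

open IsLocalRing

/-- a group with a filtration and a basis -/
structure Uni {Γ ι : Type} [Group Γ] [Fintype ι] (p : ℕ) (g : ι → Γ) (N : ℕ → Subgroup Γ) :
    Prop where
  nor : ∀ j, (N j).Normal
  top : N 0 = ⊤
  anti : ∀ j, N (j + 1) ≤ N j
  pw : ∀ i j, g i ^ p ^ j ∈ N j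
  gen : ∀ j, N j ≤ Subgroup.closure (Set.range fun i => g i ^ p ^ j) ⊔ N (j + 1)
  com : ∀ j γ, ∀ δ ∈ N j, γ * δ * γ⁻¹ * δ⁻¹ ∈ N (j + 2)
  idx : ∀ j, (N j).index = p ^ (j * Fintype.card ι)

/-- ordered monomials -/
def mon {ι E : Type} [Monoid E] (l : List ι) (b : ι → E) (a : ι → ℕ) : E :=
  (l.map fun i => b i ^ a i).prod

/-- a group with a filtration and an ordered basis -/
structure Un {Γ ι : Type} [Group Γ] (l : List ι) (p : ℕ) (g : ι → Γ) (N : ℕ → Subgroup Γ) :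
    Prop where
  nd : l.Nodup
  mem : ∀ i, i ∈ l
  nor : ∀ j, (N j).Normal
  anti : Antitone N
  pw : ∀ i j, g i ^ p ^ j ∈ N j
  ex : ∀ j γ, ∃ a, (mon l g a)⁻¹ * γ ∈ N j
  inj : ∀ j a a', (mon l g a)⁻¹ * mon l g a' ∈ N j → ∀ i, a i ≡ a' i [MOD p ^ j]
  com : ∀ j γ δ, ∃ u, (u ^ p ^ 2)⁻¹ * (γ * δ * γ⁻¹ * δ⁻¹) ∈ N j

variable {O Γ M β : Type} [CommRing O] [IsLocalRing O] [Group Γ] [AddCommGroup M] [Module O M]

/-- modules of level `t` -/
structure Adm (N : ℕ → Subgroup Γ) (t : ℕ) (ρ : Γ →* Module.End O M) : Prop where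
  triv : ∀ γ ∈ N t, ρ γ = 1
  tor : ∀ c ∈ maximalIdeal O ^ t, ∀ v : M, c • v = 0

/-- one step of the radical filtration -/
def St (ρ : Γ →* Module.End O M) (W : Submodule O M) : Submodule O M :=
  maximalIdeal O • W ⊔ ⨆ γ, W.map (ρ γ - 1)

/-- the radical filtration -/
def Fr (ρ : Γ →* Module.End O M) : ℕ → Submodule O M
  | 0 => ⊤
  | j + 1 => St ρ (Fr ρ j)

/-- `x` generates the module -/
def Gen (ρ : Γ →* Module.End O M) (x : β → M) : Prop :=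
  Submodule.span O (Set.range fun q : Γ × β => ρ q.1 (x q.2)) = ⊤

/-- `x` is independent over `(O / m ^ t) [Γ / N t]` -/
def Ind [Fintype β] (N : ℕ → Subgroup Γ) (t : ℕ) (ρ : Γ →* Module.End O M) (x : β → M) : Prop :=
  ∀ (s : Finset Γ) (c : Γ → β → O), (∀ a ∈ s, ∀ b ∈ s, a⁻¹ * b ∈ N t → a = b) →
    ∑ γ ∈ s, ∑ k, c γ k • ρ γ (x k) = 0 → ∀ γ ∈ s, ∀ k, c γ k ∈ maximalIdeal O ^ t

end Vale.Agent.P022K.Iw
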