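import Vale.Agent.P022K.Iw.Defs

/-!
# P022K, block Iw: degrees of operators for the radical filtration
-/

set_option linter.all false

noncomputable section

namespace Vale.Agent.P022K.Iw

open IsLocalRing

variable {O Γ M ι : Type} [CommRing O] [IsLocalRing O] [Group Γ] [AddCommGroup M] [Module O M]
  {ρ : Γ →* Module.End O M}

theorem St.mono {W W' : Submodule O M} (h : W ≤ W') : St ρ W ≤ St ρ W' :=
  sup_le_sup (Submodule.smul_mono le_rfl h) (iSup_mono fun _ => Submodule.map_mono h)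

theorem St.smul_mem {W : Submodule O M} {c : O} (hc : c ∈ maximalIdeal O) {v : M} (hv : v ∈ W) :
    c • v ∈ St ρ W := Submodule.mem_sup_left (Submodule.smul_mem_smul hc hv)

theorem St.sub_mem {W : Submodule O M} (γ : Γ) {v : M} (hv : v ∈ W) : (ρ γ - 1) v ∈ St ρ W :=
  Submodule.mem_sup_right (Submodule.mem_iSup_of_mem γ (Submodule.mem_map_of_mem hv))

theorem St.le {W U : Submodule O M} (h1 : ∀ c ∈ maximalIdeal O, ∀ v ∈ W, c • v ∈ U)
    (h2 : ∀ γ, ∀ v ∈ W, (ρ γ - 1) v ∈ U) : St ρ W ≤ U :=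
  sup_le (Submodule.smul_le.2 h1) (iSup_le fun γ => Submodule.map_le_iff_le_comap.2 (h2 γ))

theorem Fr.succ_le : ∀ j, Fr ρ (j + 1) ≤ Fr ρ j
  | 0 => le_top
  | j + 1 => St.mono (Fr.succ_le j)

theorem Fr.anti {i j : ℕ} (h : i ≤ j) : Fr ρ j ≤ Fr ρ i :=
  antitone_nat_of_succ_le Fr.succ_le h

/-- `u` raises the filtration by `d` -/
def Deg (ρ : Γ →* Module.End O M) (d : ℕ) (u : Module.End O M) : Prop :=
  ∀ j, ∀ v ∈ Fr ρ j, u v ∈ Fr ρ (j + d)

namespace Deg

variable {d e : ℕ} {u w : Module.End O M}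

theorem mono (h : Deg ρ d u) (k : e ≤ d) : Deg ρ e u :=
  fun j v hv => Fr.anti (by omega) (h j v hv)

theorem zero : Deg ρ d 0 := fun _ _ _ => Submodule.zero_mem _

theorem one : Deg ρ 0 1 := fun _ _ hv => hv

theorem add (h : Deg ρ d u) (k : Deg ρ d w) : Deg ρ d (u + w) :=
  fun j v hv => Submodule.add_mem _ (h j v hv) (k j v hv)

theorem neg (h : Deg ρ d u) : Deg ρ d (-u) := fun j v hv => Submodule.neg_mem _ (h j v hv)

theorem sub (h : Deg ρ d u) (k : Deg ρ d w) : Deg ρ d (u - w) :=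
  fun j v hv => Submodule.sub_mem _ (h j v hv) (k j v hv)

theorem mul (h : Deg ρ d u) (k : Deg ρ e w) : Deg ρ (d + e) (u * w) := fun j v hv => by
  have := h _ _ (k j v hv)
  rwa [show j + e + d = j + (d + e) by ring] at this

theorem sum {α : Type} (s : Finset α) {f : α → Module.End O M} (h : ∀ a ∈ s, Deg ρ d (f a)) :
    Deg ρ d (∑ a ∈ s, f a) :=
  Finset.sum_induction f (Deg ρ d) (fun _ _ => add) zero h

theorem smul0 (c : O) (h : Deg ρ d u) : Deg ρ d (c • u) :=
  fun j v hv => Submodule.smul_mem _ c (h j v hv)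

theorem pow (h : Deg ρ 1 u) : ∀ n : ℕ, Deg ρ n (u ^ n)
  | 0 => by simpa using one
  | n + 1 => by rw [pow_succ]; exact (pow h n).mul h

theorem b (γ : Γ) : Deg ρ 1 (ρ γ - 1) := fun _ _ hv => St.sub_mem γ hv

theorem r (γ : Γ) : Deg ρ 0 (ρ γ) := by
  have := ((b (ρ := ρ) γ).mono (Nat.zero_le _)).add one
  rwa [sub_add_cancel] at this

theorem smul : ∀ (e : ℕ) {c : O}, c ∈ maximalIdeal O ^ e → Deg ρ d u → Deg ρ (e + d) (c • u)
  | 0, c, _, h => by simpa using h.smul0 c
  | e + 1, c, hc, h => by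
    rw [pow_succ'] at hc
    refine Submodule.mul_induction_on hc (fun a ha b hb => ?_) fun a b ha hb => ?_
    · intro j v hv
      have h1 := smul e hb h j v hv
      rw [mul_smul, show j + (e + 1 + d) = j + (e + d) + 1 by ring]
      exact St.smul_mem ha h1
    · rw [add_smul]; exact ha.add hb

end Deg

/-- the elements which are `1` up to degree `d` -/
def degS (ρ : Γ →* Module.End O M) (d : ℕ) : Subgroup Γ where
  carrier := {γ | Deg ρ d (ρ γ - 1)}
  one_mem' := by simpa using Deg.zero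
  mul_mem' := fun {a b} ha hb => by
    have e : ρ (a * b) - 1 = ρ a * (ρ b - 1) + (ρ a - 1) := by rw [map_mul]; noncomm_ring
    show Deg ρ d _
    rw [e]
    exact (by simpa using (Deg.r a).mul hb : Deg ρ d _).add ha
  inv_mem' := fun {a} ha => by
    have e : ρ a⁻¹ - 1 = -(ρ a⁻¹ * (ρ a - 1)) := by
      rw [mul_sub, ← map_mul, inv_mul_cancel, map_one]; noncomm_ring
    show Deg ρ d _
    rw [e]
    exact Deg.neg (by simpa using (Deg.r a⁻¹).mul ha)

theorem deg_p {p : ℕ} (hp : (p : O) ∈ maximalIdeal O) : Deg ρ 1 (p : Module.End O M) := by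
  have := Deg.smul (ρ := ρ) 1 (by simpa using hp) Deg.one
  rwa [Nat.cast_smul_eq_nsmul, nsmul_one] at this

theorem pow_mem_degS {p : ℕ} (hp : (p : O) ∈ maximalIdeal O) (γ : Γ) :
    ∀ j : ℕ, γ ^ p ^ j ∈ degS ρ (j + 1)
  | 0 => by rw [pow_zero, pow_one]; exact Deg.b γ
  | j + 1 => by
    have ih := pow_mem_degS hp γ j
    set δ := γ ^ p ^ j with hδ
    have e : ρ (γ ^ p ^ (j + 1)) - 1 =
        (ρ δ - 1) * (∑ k ∈ Finset.range p, (ρ (δ ^ k) - 1) + (p : Module.End O M)) := by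
      rw [pow_succ, pow_mul, ← hδ, map_pow, ← mul_geom_sum, Finset.sum_sub_distrib]
      simp
    show Deg ρ _ _
    rw [e]
    exact Deg.mul ih ((Deg.sum _ fun k _ => Deg.b _).add (deg_p hp))

variable {p : ℕ} {g : ι → Γ} {N : ℕ → Subgroup Γ} {t : ℕ} {l : List ι}

theorem Adm.mono (h : Un l p g N) (ha : Adm N t ρ) {t' : ℕ} (k : t ≤ t') : Adm N t' ρ :=
  ⟨fun γ hγ => ha.triv γ (h.anti k hγ), fun c hc => ha.tor c (Ideal.pow_le_pow_right k hc)⟩

theorem mon_mem {S : Subgroup Γ} {a : ι → ℕ} (h : ∀ i, g i ^ a i ∈ S) (l : List ι) :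
    mon l g a ∈ S :=
  S.list_prod_mem fun x hx => by
    obtain ⟨i, -, rfl⟩ := List.mem_map.1 hx
    exact h i

theorem Un.top (h : Un l p g N) (γ : Γ) : γ ∈ N 0 := by
  obtain ⟨a, ha⟩ := h.ex 0 γ
  have := mul_mem (mon_mem (fun i => pow_mem (by simpa using h.pw i 0) (a i)) l) ha
  rwa [mul_inv_cancel_left] at this

theorem Un.gen (h : Un l p g N) (j : ℕ) {S : Subgroup Γ} (h1 : ∀ i, g i ^ p ^ j ∈ S)
    (h2 : N (j + 1) ≤ S) : N j ≤ S := by
  intro γ hγ
  obtain ⟨a, ha⟩ := h.ex (j + 1) γ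
  have h3 : (mon l g a)⁻¹ * mon l g 0 ∈ N j := by
    have := mul_mem (h.anti (Nat.le_succ j) ha) (inv_mem hγ)
    simpa [mon] using this
  have h4 : mon l g a ∈ S := mon_mem (fun i => by
    obtain ⟨c, hc⟩ := Nat.modEq_zero_iff_dvd.1 (h.inj j a 0 h3 i)
    rw [hc, pow_mul]
    exact pow_mem (h1 i) c) l
  have := mul_mem h4 (h2 ha)
  rwa [mul_inv_cancel_left] at this

theorem le_degS (h : Un l p g N) (hp : (p : O) ∈ maximalIdeal O) (ha : Adm N t ρ) (j : ℕ) :
    N j ≤ degS ρ (j + 1) := by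
  have key : ∀ m j, t ≤ j + m → N j ≤ degS ρ (j + 1) := by
    intro m
    induction m with
    | zero =>
      intro j hj γ hγ
      show Deg ρ _ _
      rw [ha.triv γ (h.anti hj hγ), sub_self]
      exact Deg.zero
    | succ m ih =>
      intro j hj
      exact h.gen j (fun i => pow_mem_degS hp _ j) fun γ hγ =>
        Deg.mono (ih (j + 1) (by omega) hγ) (Nat.le_succ _)
  exact key t j (by omega)

theorem comm_eq {E : Type} [Ring E] (ρ : Γ →* E) (γ δ : Γ) :
    (ρ γ - 1) * (ρ δ - 1) - (ρ δ - 1) * (ρ γ - 1) =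
      (ρ (γ * δ * γ⁻¹ * δ⁻¹) - 1) * ρ (δ * γ) := by
  rw [sub_mul (ρ (γ * δ * γ⁻¹ * δ⁻¹)), ← map_mul,
    show γ * δ * γ⁻¹ * δ⁻¹ * (δ * γ) = γ * δ by group, map_mul, map_mul]
  noncomm_ring

theorem deg_comm (h : Un l p g N) (hp : (p : O) ∈ maximalIdeal O) (ha : Adm N t ρ) (γ δ : Γ) :
    Deg ρ 3 ((ρ γ - 1) * (ρ δ - 1) - (ρ δ - 1) * (ρ γ - 1)) := by
  obtain ⟨u, hu⟩ := h.com t γ δ
  rw [comm_eq, ← mul_inv_cancel_left (u ^ p ^ 2) (γ * δ * γ⁻¹ * δ⁻¹), map_mul ρ (u ^ p ^ 2),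
    ha.triv _ hu, mul_one]
  exact Deg.mul (d := 3) (pow_mem_degS hp u 2) (Deg.r _)

theorem deg_comm_pow {b c : Module.End O M} (hc : Deg ρ 1 c) (h : Deg ρ 3 (b * c - c * b)) :
    ∀ n : ℕ, Deg ρ (n + 2) (b * c ^ n - c ^ n * b)
  | 0 => by simpa using Deg.zero
  | n + 1 => by
    have e : b * c ^ (n + 1) - c ^ (n + 1) * b =
        (b * c - c * b) * c ^ n + c * (b * c ^ n - c ^ n * b) := by
      rw [pow_succ']; noncomm_ring
    rw [e]
    exact ((h.mul (hc.pow n)).mono (by omega)).add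
      ((hc.mul (deg_comm_pow hc h n)).mono (by omega))

theorem mon_cons {E : Type} [Monoid E] (k : ι) (l : List ι) (b : ι → E) (a : ι → ℕ) :
    mon (k :: l) b a = b k ^ a k * mon l b a := by simp [mon]

theorem mon_congr {E : Type} [Monoid E] {l : List ι} (b : ι → E) {a a' : ι → ℕ}
    (h : ∀ i ∈ l, a i = a' i) : mon l b a = mon l b a' := by
  unfold mon
  rw [List.map_congr_left fun i hi => by rw [h i hi]]

theorem deg_mon {b : ι → Module.End O M} (hb : ∀ i, Deg ρ 1 (b i)) (a : ι → ℕ) :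
    ∀ l : List ι, Deg ρ (l.map a).sum (mon l b a)
  | [] => by simpa [mon] using Deg.one
  | k :: l => by
    rw [mon_cons, List.map_cons, List.sum_cons]
    exact ((hb k).pow _).mul (deg_mon hb a l)

/-- multiplication of an ordered monomial by a generator -/
theorem deg_mul_mon {b : ι → Module.End O M} (hb : ∀ i, Deg ρ 1 (b i))
    (hc : ∀ i k, Deg ρ 3 (b i * b k - b k * b i)) (i : ι) {a a' : ι → ℕ} (h1 : a' i = a i + 1)
    (h2 : ∀ k, k ≠ i → a' k = a k) : ∀ l : List ι, l.Nodup → i ∈ l →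
      Deg ρ ((l.map a).sum + 2) (b i * mon l b a - mon l b a')
  | [], _, h => by simp at h
  | k :: l, hl, h => by
    rw [List.nodup_cons] at hl
    rw [mon_cons, mon_cons, List.map_cons, List.sum_cons]
    by_cases e : k = i
    · subst e
      rw [h1, mon_congr b (a := a') (a' := a) fun j hj => h2 j fun e => hl.1 (e ▸ hj), pow_succ',
        mul_assoc, sub_self]
      exact Deg.zero
    · have ih := deg_mul_mon hb hc i h1 h2 l hl.2 ((List.mem_cons.1 h).resolve_left (Ne.symm e))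
      have e2 : b i * (b k ^ a k * mon l b a) - b k ^ a k * mon l b a' =
          (b i * b k ^ a k - b k ^ a k * b i) * mon l b a +
            b k ^ a k * (b i * mon l b a - mon l b a') := by noncomm_ring
      rw [h2 k e, e2]
      exact (((deg_comm_pow (hb k) (hc i k) _).mul (deg_mon hb a l)).mono (by omega)).add
        ((((hb k).pow _).mul ih).mono (by omega))

theorem mul_mon {E : Type} [Monoid E] {b : ι → E} (i : ι) {z : E} {m : ℕ} (hz : z = b i ^ m)
    (hc : ∀ k, Commute z (b k)) {a a' : ι → ℕ} (h1 : a' i = a i + m)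
    (h2 : ∀ k, k ≠ i → a' k = a k) : ∀ l : List ι, l.Nodup → i ∈ l →
      z * mon l b a = mon l b a'
  | [], _, h => by simp at h
  | k :: l, hl, h => by
    rw [List.nodup_cons] at hl
    rw [mon_cons, mon_cons]
    by_cases e : k = i
    · subst e
      rw [h1, mon_congr b (a := a') (a' := a) fun j hj => h2 j fun e => hl.1 (e ▸ hj), add_comm,
        pow_add, mul_assoc, hz]
    · rw [h2 k e, ← mul_mon i hz hc h1 h2 l hl.2 ((List.mem_cons.1 h).resolve_left (Ne.symm e)),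
        ← mul_assoc, ((hc k).pow_right _).eq, mul_assoc]

/-- the linear part of a group element -/
theorem exists_lin [Fintype ι] (h : Un l p g N) (hp : (p : O) ∈ maximalIdeal O) (ha : Adm N t ρ) (γ : Γ) :
    ∃ c : ι → O, Deg ρ 2 (ρ γ - 1 - ∑ i, c i • (ρ (g i) - 1)) := by
  classical
  let S : Subgroup Γ :=
    { carrier := {γ | ∃ c : ι → O, Deg ρ 2 (ρ γ - 1 - ∑ i, c i • (ρ (g i) - 1))}
      one_mem' := ⟨0, by simpa using Deg.zero⟩
      mul_mem' := by
        rintro a b ⟨c, hc⟩ ⟨c', hc'⟩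
        refine ⟨c + c', ?_⟩
        have e : ρ (a * b) - 1 - ∑ i, (c + c') i • (ρ (g i) - 1) =
            (ρ a - 1 - ∑ i, c i • (ρ (g i) - 1)) + (ρ b - 1 - ∑ i, c' i • (ρ (g i) - 1)) +
              (ρ a - 1) * (ρ b - 1) := by
          simp only [Pi.add_apply, add_smul, Finset.sum_add_distrib, map_mul]
          noncomm_ring
        rw [e]
        exact (hc.add hc').add ((Deg.b a).mul (Deg.b b))
      inv_mem' := by
        rintro a ⟨c, hc⟩
        refine ⟨-c, ?_⟩
        have e0 : ρ a⁻¹ * ρ a = 1 := by rw [← map_mul, inv_mul_cancel, map_one]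
        have e : ρ a⁻¹ - 1 - ∑ i, (-c) i • (ρ (g i) - 1) =
            -(ρ a - 1 - ∑ i, c i • (ρ (g i) - 1)) - (ρ a⁻¹ - 1) * (ρ a - 1) := by
          simp only [Pi.neg_apply, neg_smul, Finset.sum_neg_distrib, sub_mul, mul_sub, e0]
          noncomm_ring
        rw [e]
        exact hc.neg.sub ((Deg.b _).mul (Deg.b a)) }
  refine h.gen 0 (S := S) (fun i => ⟨Pi.single i 1, ?_⟩) (fun γ hγ => ?_) (h.top γ)
  · rw [Finset.sum_eq_single i (fun k _ hk => by simp [hk]) (by simp)]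
    simpa using Deg.zero
  · have h2 : Deg ρ 2 (ρ γ - 1) := le_degS h hp ha 1 hγ
    exact ⟨0, by simpa using h2⟩

/-- commuting nilpotent operators -/
theorem nak_aux {α : Type} (c : α → Module.End O M) (W : Submodule O M) (n : ℕ)
    (hW : ∀ i, ∀ v ∈ W, c i v ∈ W) (U : Submodule O M) (hU : ∀ i, ∀ v ∈ U, c i v ∈ U)
    (hc : ∀ i k, ∀ v ∈ W, (c i * c k - c k * c i) v ∈ U) (hn : ∀ i, ∀ v ∈ W, (c i ^ n) v ∈ U)
    (s : Finset α) : W ≤ U ⊔ ⨆ i ∈ s, W.map (c i) → W ≤ U := by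
  classical
  induction s using Finset.induction_on with
  | empty => simp
  | insert i s hi ih =>
    intro h
    refine ih ?_
    set U' := U ⊔ ⨆ i ∈ s, W.map (c i) with hU'
    have h1 : U' ≤ U'.comap (c i) := by
      refine sup_le (fun v hv => Submodule.mem_sup_left (hU i v hv))
        (iSup₂_le fun k hk => Submodule.map_le_iff_le_comap.2 fun v hv => ?_)
      have e : c i (c k v) = (c i * c k - c k * c i) v + c k (c i v) := by simp
      show c i (c k v) ∈ U'
      rw [e]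
      exact Submodule.add_mem_sup (hc i k v hv) (Submodule.mem_iSup_of_mem k
        (Submodule.mem_iSup_of_mem hk (Submodule.mem_map_of_mem (hW i v hv))))
    have h2 : W ≤ U' ⊔ W.map (c i) := by
      rw [Finset.iSup_insert, sup_comm (W.map (c i)), ← sup_assoc] at h
      exact h
    have h3 : ∀ e : ℕ, W ≤ U' ⊔ W.map (c i ^ e) := by
      intro e
      induction e with
      | zero => intro v hv; exact Submodule.mem_sup_right ⟨v, hv, rfl⟩
      | succ e ihe =>
        refine h2.trans (sup_le le_sup_left (Submodule.map_le_iff_le_comap.2 fun v hv => ?_))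
        obtain ⟨u, hu, _, ⟨w, hw, rfl⟩, rfl⟩ := Submodule.mem_sup.1 (ihe hv)
        rw [Submodule.mem_comap, map_add]
        exact Submodule.add_mem_sup (h1 hu) ⟨w, hw, by rw [pow_succ']; rfl⟩
    exact (h3 n).trans (sup_le le_rfl (Submodule.map_le_iff_le_comap.2 fun v hv =>
      Submodule.mem_sup_left (hn i v hv)))

theorem aug_pow {E : Type} [Ring E] [Algebra O E] (hp0 : p.Prime) {u : E} {e : ℕ}
    (hu : u ^ p ^ e = 1) : ∃ q : Polynomial O,
      (u - 1) ^ p ^ e = (p : O) • Polynomial.aeval (u - 1) q := by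
  obtain ⟨q, hq⟩ := exists_add_pow_prime_pow_eq hp0 (Polynomial.X : Polynomial O) 1 e
  have e0 : (Polynomial.X : Polynomial O) ^ p ^ e =
      ((Polynomial.X + 1) ^ p ^ e - 1) + (p : O) • (-(Polynomial.X * q)) := by
    rw [hq, Nat.cast_smul_eq_nsmul, nsmul_eq_mul]; ring
  have e1 := congrArg (Polynomial.aeval (u - 1)) e0
  rw [map_add, map_sub, map_pow, map_pow, map_add, Polynomial.aeval_X, map_one, sub_add_cancel, hu,
    sub_self, zero_add, map_smul] at e1
  exact ⟨_, e1⟩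

/-- Nakayama's lemma for a finite `p`-group -/
theorem nakP [Finite Γ] (hp0 : p.Prime) (hΓ : IsPGroup p Γ) (hp : (p : O) ∈ maximalIdeal O)
    (W : Submodule O M) (hW : ∀ γ, ∀ v ∈ W, ρ γ v ∈ W) (hS : W ≤ St ρ W) :
    W ≤ maximalIdeal O • W := by
  have := Fact.mk hp0
  obtain ⟨e, he⟩ := IsPGroup.iff_card.1 hΓ
  obtain ⟨n, hn⟩ := Subgroup.nilpotent_iff_lowerCentralSeries.1 hΓ.isNilpotent
  let H : ℕ → Subgroup Γ := Subgroup.lowerCentralSeries ⊤
  let I : ℕ → Submodule O M := fun j => maximalIdeal O • W ⊔ ⨆ γ ∈ H j, W.map (ρ γ - 1)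
  have hm : ∀ j, ∀ γ ∈ H j, ∀ v ∈ W, (ρ γ - 1) v ∈ I j := fun j γ hγ v hv =>
    Submodule.mem_sup_right (Submodule.mem_iSup_of_mem γ (Submodule.mem_iSup_of_mem hγ
      (Submodule.mem_map_of_mem hv)))
  have hb : ∀ γ, ∀ v ∈ W, (ρ γ - 1) v ∈ W := fun γ v hv => W.sub_mem (hW γ v hv) hv
  have hI : ∀ j γ, I j ≤ (I j).comap (ρ γ) := by
    intro j γ
    refine sup_le (Submodule.smul_le.2 fun c hc v hv => ?_)
      (iSup₂_le fun δ hδ => Submodule.map_le_iff_le_comap.2 fun v hv => ?_)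
    · show ρ γ (c • v) ∈ I j
      rw [map_smul]
      exact Submodule.mem_sup_left (Submodule.smul_mem_smul hc (hW γ v hv))
    · have e : ρ γ * (ρ δ - 1) = (ρ (γ * δ * γ⁻¹) - 1) * ρ γ := by
        rw [sub_mul, ← map_mul, inv_mul_cancel_right, map_mul]; noncomm_ring
      show (ρ γ * (ρ δ - 1)) v ∈ I j
      rw [e]
      exact hm j _ ((inferInstance : (H j).Normal).conj_mem δ hδ γ) _ (hW γ v hv)
  have key : ∀ j, W ≤ I j := by
    intro j
    induction j with
    | zero =>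
      exact hS.trans (St.le (fun c hc v hv => Submodule.mem_sup_left
        (Submodule.smul_mem_smul hc hv)) fun γ v hv => hm 0 γ trivial v hv)
    | succ j ih =>
      have := Fintype.ofFinite (H j)
      refine nak_aux (fun i : H j => ρ i - 1) W (p ^ e) (fun i => hb _) (I (j + 1))
        (fun i v hv => (I (j + 1)).sub_mem (hI _ _ hv) hv) (fun i k v hv => ?_)
        (fun i v hv => ?_) Finset.univ (ih.trans ?_)
      · rw [comm_eq]
        exact hm _ _ (Subgroup.commutator_mem_commutator i.2 (Subgroup.mem_top (k : Γ))) _ (hW _ v hv)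
      · obtain ⟨q, hq⟩ := aug_pow (O := O) hp0 (u := ρ i) (e := e) (by
          rw [← map_pow, ← he, pow_card_eq_one', map_one])
        rw [hq]
        exact Submodule.mem_sup_left (Submodule.smul_mem_smul hp
          (Polynomial.aeval_apply_smul_mem_of_le_comap hv q _ (hb _)))
      · exact sup_le (le_sup_left.trans le_sup_left) (iSup₂_le fun δ hδ => le_sup_right.trans'
          (le_iSup₂_of_le (f := fun (i : H j) (_ : i ∈ Finset.univ) => W.map (ρ i - 1)) ⟨δ, hδ⟩
            (Finset.mem_univ _) le_rfl))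
  refine (key n).trans (sup_le le_rfl (iSup₂_le fun δ hδ => ?_))
  have : δ = 1 := by simpa [H, hn] using hδ
  rw [this, map_one, sub_self, Submodule.map_zero]
  exact bot_le

theorem mon_mod {Q : Type} [Monoid Q] {b : ι → Q} {P : ℕ} (hb : ∀ i, b i ^ P = 1) (l : List ι)
    (a : ι → ℕ) : mon l b (fun i => a i % P) = mon l b a := by
  unfold mon
  rw [List.map_congr_left fun i _ => (pow_eq_pow_mod (a i) (hb i)).symm]

theorem map_mon {Q Q' : Type} [Monoid Q] [Monoid Q'] (φ : Q →* Q') (l : List ι) (b : ι → Q)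
    (a : ι → ℕ) : φ (mon l b a) = mon l (fun i => φ (b i)) a := by
  simp only [mon, map_list_prod, List.map_map, Function.comp_def, map_pow]

theorem wd_surj {H : Subgroup Γ} [H.Normal] {P : ℕ} (hP : 0 < P) (hg : ∀ i, g i ^ P ∈ H)
    (ex : ∀ γ, ∃ a, (mon l g a)⁻¹ * γ ∈ H) : Function.Surjective fun c : ι → Fin P =>
      QuotientGroup.mk' H (mon l g fun i => c i) := by
  intro q
  obtain ⟨γ, rfl⟩ := QuotientGroup.mk_surjective q
  obtain ⟨c, hc⟩ := ex γ
  refine ⟨fun i => ⟨c i % P, Nat.mod_lt _ hP⟩, ?_⟩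
  rw [← QuotientGroup.eq.2 hc]
  show QuotientGroup.mk' _ _ = QuotientGroup.mk' _ _
  rw [map_mon, map_mon]
  exact mon_mod (fun i => by rw [← map_pow]; exact (QuotientGroup.eq_one_iff _).2 (hg i)) _ _

theorem Un.wd_inj (h : Un l p g N) (t : ℕ) {a a' : ι → ℕ} (ha : ∀ i, a i < p ^ t)
    (ha' : ∀ i, a' i < p ^ t) (e : (mon l g a)⁻¹ * mon l g a' ∈ N t) : a = a' :=
  funext fun i => (h.inj t a a' e i).eq_of_lt_of_lt (ha i) (ha' i)

theorem Un.idx [Fintype ι] (h : Un l p g N) (hp0 : p.Prime) (t : ℕ) :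
    (N t).index = p ^ (t * Fintype.card ι) := by
  classical
  have := h.nor t
  rw [Subgroup.index, ← Nat.card_eq_of_bijective _ ⟨fun c c' e => funext fun i => Fin.ext
    (congrFun (h.wd_inj t (fun i => (c i).2) (fun i => (c' i).2) (QuotientGroup.eq.1 e)) i),
    wd_surj (pow_pos hp0.pos t) (fun i => h.pw i t) (h.ex t)⟩, Nat.card_eq_fintype_card,
    Fintype.card_fun, Fintype.card_fin, pow_mul]

/-- Nakayama's lemma for modules of finite level -/
theorem nak [Fintype ι] (h : Un l p g N) (hp0 : p.Prime) (hp : (p : O) ∈ maximalIdeal O)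
    (ha : Adm N t ρ) (W : Submodule O M) (hW : ∀ γ, ∀ v ∈ W, ρ γ v ∈ W) (hS : W ≤ St ρ W) :
    W = ⊥ := by
  have := h.nor t
  have hc := h.idx hp0 t
  have : Finite (Γ ⧸ N t) := Nat.finite_of_card_ne_zero (by
    rw [← Subgroup.index, hc]; exact pow_ne_zero _ hp0.ne_zero)
  let ρ' : Γ ⧸ N t →* Module.End O M := QuotientGroup.lift _ ρ ha.triv
  have h1 : W ≤ maximalIdeal O • W := nakP (ρ := ρ') hp0 (IsPGroup.of_card hc) hp W
    (fun q => by obtain ⟨γ, rfl⟩ := QuotientGroup.mk_surjective q; exact hW γ)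
    (hS.trans (St.le (fun c hc v hv => St.smul_mem hc hv) fun γ v hv =>
      St.sub_mem (ρ := ρ') (γ : Γ ⧸ N t) hv))
  have h2 : ∀ e : ℕ, W ≤ maximalIdeal O ^ e • W := by
    intro e
    induction e with
    | zero => simp
    | succ e ih =>
      rw [pow_succ, mul_smul]
      exact ih.trans (Submodule.smul_mono le_rfl h1)
  exact le_bot_iff.1 ((h2 t).trans (Submodule.smul_le.2 fun c hc v _ => ha.tor c hc v))

end Vale.Agent.P022K.Iw
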