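import Vale.Agent.P022K.Iw.Main
import Vale.Agent.P022K.Iw.Gl

/-!
# P022K, block Iw: the uniform group used in patching
-/

set_option linter.all false

noncomputable section

namespace Vale.Agent.P022K.Iw

open Vale.Agent.P022K.WB

theorem unf_of_uo {K : Type} [Group K] {e r p : ℕ} {k : Fin e ⊕ Fin r → K} {N : ℕ → Subgroup K}
    (h : Uo p k N) (hp : p.Prime) (hc : ∀ s, k (Sum.inr s) ∈ Subgroup.center K) :
    RT.Unf p k N := by
  have h1 := h.un hp (ls_nodup (e := e) (r := r)) mem_ls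
  exact ⟨h1.nor, h1.anti, hc, fun m i => h1.pw i m, fun m γ => by simpa only [mon_ls] using h1.ex m γ,
    fun m a a' => by simpa only [mon_ls] using h1.inj m a a', h1.com⟩

/-- pull back along a homomorphism which hits the generators -/
theorem unf_comap {K K' : Type} [Group K] [Group K'] {e r p : ℕ} {k : Fin e ⊕ Fin r → K}
    {N : ℕ → Subgroup K} (h : RT.Unf p k N) (φ : K' →* K) {k' : Fin e ⊕ Fin r → K'}
    (hk : ∀ i, φ (k' i) = k i) (hc : ∀ s, k' (Sum.inr s) ∈ Subgroup.center K') :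
    RT.Unf p k' fun m => (N m).comap φ := by
  have hm : ∀ a, φ (RT.mon k' a) = RT.mon k a := fun a => by
    rw [← mon_ls, ← mon_ls, map_mon]
    simp only [hk]
  refine ⟨fun m => (h.nor m).comap φ, fun _ _ e => Subgroup.comap_mono (h.anti e), hc,
    fun m i => by simpa [hk] using h.pow m i,
    fun m γ => (h.ex m (φ γ)).imp fun a ha => by simpa [hm] using ha,
    fun m a a' e => h.inj m a a' (by simpa [hm] using e), fun m γ δ => ?_⟩
  obtain ⟨u, hu⟩ := h.com m (φ γ) (φ δ)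
  obtain ⟨a, ha⟩ := h.ex m u
  have := h.nor m
  refine ⟨RT.mon k' a, ?_⟩
  rw [Subgroup.mem_comap, map_mul, map_inv, map_pow, hm, map_mul, map_mul, map_mul, map_inv,
    map_inv, ← QuotientGroup.eq, ← QuotientGroup.eq.2 hu, QuotientGroup.mk_pow,
    QuotientGroup.mk_pow, QuotientGroup.eq.2 ha]

/-- the free abelian group of the central generators -/
abbrev Zr (r : ℕ) : Type := Fin r → Multiplicative ℤ

theorem uo_Zr {p : ℕ} (hp : p.Prime) (r : ℕ) :
    Uo p (fun s : Fin r => (Pi.mulSingle s (Multiplicative.ofAdd (1 : ℤ)) : Zr r))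
      fun m => Subgroup.pi Set.univ fun _ => Nz p m :=
  (Uo.pi fun _ : Fin r => uo_int hp).reindex (Equiv.sigmaPUnit (Fin r)).symm

variable (p q : ℕ) [Fact p.Prime] (δ : Type) [DecidableEq δ] (r : ℕ)

/-- the group -/
abbrev KK : Type := (δ → Kn p (q + 2)) × Zr r

variable {δ} in
/-- the generators -/
def kK {e : ℕ} (ε : Fin e ≃ δ × Fin 3) : Fin e ⊕ Fin r → KK p q δ r :=
  Sum.elim (fun i => (Pi.mulSingle (ε i).1 (gK p q (ε i).2), 1))
    fun s => (1, Pi.mulSingle s (Multiplicative.ofAdd 1))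

/-- the filtration -/
def NN (m : ℕ) : Subgroup (KK p q δ r) :=
  (Subgroup.pi Set.univ fun _ => NK p q m).prod (Subgroup.pi Set.univ fun _ => Nz p m)

variable {p q δ r}

omit [DecidableEq δ] in
theorem mem_NN {m : ℕ} {x : KK p q δ r} : x ∈ NN p q δ r m ↔
    (∀ v, ∃ z : ℚ_[p]ˣ, ∃ k' ∈ Kn p (m + (q + 2)), (x.1 v).1 = dd z z * k') ∧
      ∀ s, (p : ℤ) ^ m ∣ (x.2 s).toAdd :=
  ⟨fun h => ⟨fun v => mem_NK.1 (h.1 v trivial), fun s => mem_Nz.1 (h.2 s trivial)⟩,
    fun h => ⟨fun v _ => mem_NK.2 (h.1 v), fun s _ => mem_Nz.2 (h.2 s)⟩⟩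

theorem uo_KK [Finite δ] {e : ℕ} (ε : Fin e ≃ δ × Fin 3) : Uo p (kK p q r ε) (NN p q δ r) :=
  ((Uo.pi fun _ : δ => uo_K (p := p) (q := q)).reindex
    (ε.trans (Equiv.sigmaEquivProd δ (Fin 3)).symm)).prod (uo_Zr Fact.out r)

/-- **the instance** -/
theorem unf_KK [Finite δ] {e : ℕ} (ε : Fin e ≃ δ × Fin 3) :
    RT.Unf p (kK p q r ε) (NN p q δ r) :=
  unf_of_uo (uo_KK ε) Fact.out fun s => Subgroup.mem_center_iff.2 fun x =>
    Prod.ext (by simp [kK]) (mul_comm _ _)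

end Vale.Agent.P022K.Iw
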