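import Vale.Agent.P022K.Iw.Main
import Vale.Agent.P022K.PL.Limop

/-!
# P022K, block Iw: towers of free modules, the data of finite level for patching
-/

set_option linter.all false

noncomputable section

namespace Vale.Agent.P022K.Iw

open IsLocalRing MvPowerSeries Filter
open Vale.Agent.P022D.Core (PS y1)
open Vale.Agent.P022K.PL (Cf Fl Op Iy Lev Com)

section

variable {O K β : Type} [CommRing O] [IsLocalRing O] [Group K] [Fintype β] {N : ℕ → Subgroup K}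
  {t : ℕ} {M : Type} [AddCommGroup M] [Module O M] {ρ : K →* Module.End O M}
  {M' : Type} [AddCommGroup M'] [Module O M'] {ρ' : K →* Module.End O M'}

theorem Adm.out (ha : Adm N t ρ) (γ : K) : ρ (γ : K ⧸ N t).out = ρ γ := by
  obtain ⟨h, e⟩ := QuotientGroup.mk_out_eq_mul (N t) γ
  rw [e, map_mul, ha.triv _ h.2, mul_one]

/-- relations in a free module hold in every module of the same level -/
theorem Ind.rel {z : β → M} (hz : Ind N t ρ z) (ha : Adm N t ρ) (ha' : Adm N t ρ') (x : β → M')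
    (s : Finset K) (c : K → β → O) (h : ∑ γ ∈ s, ∑ b, c γ b • ρ γ (z b) = 0) :
    ∑ γ ∈ s, ∑ b, c γ b • ρ' γ (x b) = 0 := by
  classical
  let o : K → K := fun γ => (γ : K ⧸ N t).out
  have key : ∀ (M : Type) [AddCommGroup M] [Module O M] (ρ : K →* Module.End O M) (x : β → M),
      Adm N t ρ → ∑ γ ∈ s, ∑ b, c γ b • ρ γ (x b) = ∑ q ∈ s.image o, ∑ b,
        (∑ γ ∈ s with o γ = q, c γ b) • ρ q (x b) := by
    intro M _ _ ρ x ha
    rw [← Finset.sum_fiberwise_of_maps_to (fun γ hγ => Finset.mem_image_of_mem o hγ)]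
    refine Finset.sum_congr rfl fun q _ => ?_
    rw [Finset.sum_comm]
    refine Finset.sum_congr rfl fun b _ => ?_
    rw [Finset.sum_smul]
    refine Finset.sum_congr rfl fun γ hγ => ?_
    rw [← (Finset.mem_filter.1 hγ).2, ha.out]
  rw [key _ _ _ ha] at h
  rw [key _ _ _ ha']
  have h1 := hz _ _ (fun a h1 b h2 e => by
    obtain ⟨γ, -, rfl⟩ := Finset.mem_image.1 h1
    obtain ⟨δ, -, rfl⟩ := Finset.mem_image.1 h2
    have := QuotientGroup.eq.2 e
    rw [QuotientGroup.out_eq', QuotientGroup.out_eq'] at this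
    exact congrArg Quotient.out this) h
  exact Finset.sum_eq_zero fun q hq => Finset.sum_eq_zero fun b _ => ha'.tor _ (h1 q hq b) _

theorem Gen.fin [Finite (K ⧸ N t)] (ha : Adm N t ρ) {z : β → M} (hz : Gen ρ z) :
    Module.Finite O M := by
  refine ⟨Submodule.fg_def.2 ⟨Set.range fun q : (K ⧸ N t) × β => ρ q.1.out (z q.2),
    Set.finite_range _, top_le_iff.1 (hz.ge.trans (Submodule.span_mono ?_))⟩⟩
  rintro _ ⟨⟨γ, b⟩, rfl⟩
  exact ⟨(γ, b), by simp only [ha.out]⟩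

omit [Fintype β] in
theorem Gen.map {z : β → M} (hz : Gen ρ z) (φ : M →ₗ[O] M') (hφ : ∀ γ w, φ (ρ γ w) = ρ' γ (φ w))
    (hs : Function.Surjective φ) : Gen ρ' fun b => φ (z b) := by
  rw [Gen, eq_top_iff, ← LinearMap.range_eq_top.2 hs, ← Submodule.map_top, ← hz,
    Submodule.map_span, Submodule.span_le]
  rintro _ ⟨_, ⟨q, rfl⟩, rfl⟩
  exact Submodule.subset_span ⟨q, (hφ _ _).symm⟩

omit [Fintype β] in
/-- generators lift along a map whose kernel lies in the radical -/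
theorem Gen.lift {x : β → M} (φ : M →ₗ[O] M') (hφ : ∀ γ w, φ (ρ γ w) = ρ' γ (φ w))
    (hk : ∀ w, φ w = 0 → w ∈ Fr ρ 1) (hx : Gen ρ' fun b => φ (x b)) {j : ℕ} (hj : Fr ρ j = ⊥) :
    Gen ρ x := by
  set W := Submodule.span O (Set.range fun q : K × β => ρ q.1 (x q.2)) with hW
  have h0 : ∀ γ, W ≤ W.comap (ρ γ) := fun γ => Submodule.span_le.2 (by
    rintro _ ⟨q, rfl⟩
    exact Submodule.subset_span ⟨(γ * q.1, q.2), by simp⟩)
  have h1 : ∀ w, w ∈ W ⊔ Fr ρ 1 := fun w => by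
    have h2 : φ w ∈ W.map φ := by
      refine (show ⊤ ≤ W.map φ from ?_) trivial
      rw [← hx, Submodule.span_le]
      rintro _ ⟨q, rfl⟩
      exact ⟨_, Submodule.subset_span ⟨q, rfl⟩, hφ _ _⟩
    obtain ⟨u, hu, e⟩ := h2
    rw [← add_sub_cancel u w]
    exact Submodule.add_mem_sup hu (hk _ (by rw [map_sub, e, sub_self]))
  have h3 : ∀ i, (⊤ : Submodule O M) ≤ W ⊔ Fr ρ i := by
    intro i
    induction i with
    | zero => exact le_sup_right
    | succ i ih =>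
      refine (show ⊤ ≤ W ⊔ Fr ρ 1 from fun w _ => h1 w).trans (sup_le le_sup_left
        (St.le (fun c hc v hv => ?_) fun γ v hv => ?_))
      · obtain ⟨u, hu, w, hw, rfl⟩ := Submodule.mem_sup.1 (ih hv)
        rw [smul_add]
        exact Submodule.add_mem_sup (W.smul_mem c hu) (St.smul_mem hc hw)
      · obtain ⟨u, hu, w, hw, rfl⟩ := Submodule.mem_sup.1 (ih hv)
        rw [map_add]
        exact Submodule.add_mem_sup (W.sub_mem (h0 γ hu) hu) (St.sub_mem γ hw)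
  have := h3 j
  rwa [hj, sup_bot_eq, top_le_iff] at this

variable [DecidableEq β] {e r : ℕ} {k : Fin e ⊕ Fin r → K}
  {lam : K →* Module.End O (PS O (Fin e ⊕ Fin r))}

theorem RegX.fr_bot (h : RegX k N lam) (ha : Adm N t ρ) {z : β → M} (hz : Gen ρ z) :
    ∃ j, Fr ρ j = ⊥ := by
  obtain ⟨π, h1, -, h2, -⟩ := h.pm M β ρ t ha z
  obtain ⟨j, hj⟩ := h1.cts
  refine ⟨j, eq_bot_iff.2 fun w hw => ?_⟩
  obtain ⟨v, hv, rfl⟩ := h2 hz j w hw
  exact hj v hv

theorem IsP.rel (h : RT.Reg k N lam) {z : β → M} (hz : Ind N t ρ z) (ha : Adm N t ρ)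
    (ha' : Adm N t ρ') {x : β → M'} {π : (β → PS O (Fin e ⊕ Fin r)) →ₗ[O] M}
    {π' : (β → PS O (Fin e ⊕ Fin r)) →ₗ[O] M'} (hπ : IsP lam ρ z π) (hπ' : IsP lam ρ' x π')
    {v : β → PS O (Fin e ⊕ Fin r)} (hv : π v = 0) : π' v = 0 := by
  classical
  obtain ⟨j, hj⟩ := hπ.cts
  obtain ⟨j', hj'⟩ := hπ'.cts
  choose c hc using fun b => h.den (j + j') (v b)
  let s := Finset.univ.biUnion fun b => (c b).support
  have key : ∀ (M : Type) [AddCommGroup M] [Module O M] (ρ : K →* Module.End O M) (x : β → M)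
      (π : (β → PS O (Fin e ⊕ Fin r)) →ₗ[O] M), IsP lam ρ x π →
      (∀ v ∈ Fl O (Fin e) r (β → PS O (Fin e ⊕ Fin r)) (j + j'), π v = 0) →
      π v = ∑ γ ∈ s, ∑ b, c b γ • ρ γ (x b) := by
    intro M _ _ ρ x π hπ h0
    have h1 := h0 (v - fun b => (c b).sum fun γ o => o • lam γ 1) (mem_Fl_pi.2 hc)
    rw [map_sub, sub_eq_zero] at h1
    rw [h1, ← Finset.univ_sum_single fun b => (c b).sum fun γ o => o • lam γ 1, map_sum,
      Finset.sum_comm]
    refine Finset.sum_congr rfl fun b _ => ?_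
    rw [Finsupp.sum_of_support_subset _ (Finset.subset_biUnion_of_mem (fun b => (c b).support)
      (Finset.mem_univ b)) _ (by simp)]
    show (π ∘ₗ LinearMap.single O _ b) _ = _
    rw [map_sum]
    refine Finset.sum_congr rfl fun γ _ => ?_
    rw [map_smul, ← hπ.single]
    rfl
  rw [key _ _ _ _ hπ fun v hv => hj v (Fl_anti (Nat.le_add_right _ _) hv)] at hv
  rw [key _ _ _ _ hπ' fun v hv => hj' v (Fl_anti (Nat.le_add_left _ _) hv)]
  exact hz.rel ha ha' x s (fun γ b => c b γ) hv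

/-- **a generating family of a free module of the same size is a basis** -/
theorem RegX.pm_free (h : RegX k N lam) [Finite (K ⧸ N t)] (ha : Adm N t ρ)
    (hf : ∃ z : β → M, Gen ρ z ∧ Ind N t ρ z) {x : β → M} (hx : Gen ρ x) : ∃ π, IsP lam ρ x π ∧
      (∀ j, ∀ v ∈ Fl O (Fin e) r (β → PS O (Fin e ⊕ Fin r)) j, π v ∈ Fr ρ j) ∧
      (∀ j, ∀ w ∈ Fr ρ j, ∃ v ∈ Fl O (Fin e) r (β → PS O (Fin e ⊕ Fin r)) j, π v = w) ∧
      ∀ v, π v = 0 → v ∈ Fl O (Fin e) r (β → PS O (Fin e ⊕ Fin r)) t := by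
  obtain ⟨z, h1, h2⟩ := hf
  obtain ⟨π, a1, a2, a3, -⟩ := h.pm M β ρ t ha x
  obtain ⟨π', b1, -, b3, b4⟩ := h.pm M β ρ t ha z
  refine ⟨π, a1, a2, a3 hx, fun v hv => b4 h2 v ?_⟩
  have s1 : Function.Surjective π := fun w => (a3 hx 0 w trivial).imp fun _ h => h.2
  have s2 : Function.Surjective π' := fun w => (b3 h1 0 w trivial).imp fun _ h => h.2
  have := h1.fin ha
  have hk : LinearMap.ker π' ≤ LinearMap.ker π := fun v hv => b1.rel h.toReg h2 ha ha a1 hv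
  let θ : M →ₗ[O] M := (LinearMap.ker π').liftQ π hk ∘ₗ
    (π'.quotKerEquivOfSurjective s2).symm.toLinearMap
  have e : ∀ v, θ (π' v) = π v := fun v => by
    show (LinearMap.ker π').liftQ π hk ((π'.quotKerEquivOfSurjective s2).symm (π' v)) = π v
    rw [LinearMap.quotKerEquivOfSurjective_symm_apply, Submodule.liftQ_apply]
  have hθ := OrzechProperty.injective_of_surjective_endomorphism θ fun w =>
    (s1 w).elim fun v hv => ⟨_, (e v).trans hv⟩
  exact hθ (by rw [e, hv, map_zero])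

/-- the augmentation submodule of the central generators -/
def Aug (ρ : K →* Module.End O M) (k : Fin e ⊕ Fin r → K) : Submodule O M :=
  ⨆ s, LinearMap.range (ρ (k (Sum.inr s)) - 1)

omit [DecidableEq β] [Fintype β] in
theorem mem_Iy {v : β → PS O (Fin e ⊕ Fin r)} :
    v ∈ Iy O (Fin e) r (β → PS O (Fin e ⊕ Fin r)) Set.univ ↔
      ∃ u : Fin r → β → PS O (Fin e ⊕ Fin r), ∑ s, y1 O (Fin e) s • u s = v := by
  rw [Iy, Set.image_univ]
  constructor
  · intro h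
    refine Submodule.smul_induction_on h (fun a ha w _ => ?_) ?_
    · obtain ⟨c, rfl⟩ := Ideal.mem_span_range_iff_exists_fun.1 ha
      exact ⟨fun s => c s • w, by simp only [Finset.sum_smul, smul_smul, mul_comm]⟩
    · rintro _ _ ⟨u, rfl⟩ ⟨u', rfl⟩
      exact ⟨u + u', by simp only [Pi.add_apply, smul_add, Finset.sum_add_distrib]⟩
  · rintro ⟨u, rfl⟩
    exact Submodule.sum_mem _ fun s _ =>
      Submodule.smul_mem_smul (Ideal.subset_span ⟨s, rfl⟩) trivial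

theorem IsP.aug (h : RT.Reg k N lam) {x : β → M} {π : (β → PS O (Fin e ⊕ Fin r)) →ₗ[O] M}
    (hπ : IsP lam ρ x π) (hs : Function.Surjective π) {w : M} : w ∈ Aug ρ k ↔
      ∃ v ∈ Iy O (Fin e) r (β → PS O (Fin e ⊕ Fin r)) Set.univ, π v = w := by
  refine ⟨fun hw => Submodule.iSup_induction _ (motive := fun w => ∃ v ∈ Iy O (Fin e) r
    (β → PS O (Fin e ⊕ Fin r)) Set.univ, π v = w) hw ?_ ⟨0, zero_mem _, map_zero _⟩ ?_, ?_⟩
  · rintro s _ ⟨w, rfl⟩
    obtain ⟨v, rfl⟩ := hs w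
    exact ⟨_, Submodule.smul_mem_smul (Ideal.subset_span ⟨s, trivial, rfl⟩) trivial, hπ.y h s v⟩
  · rintro _ _ ⟨v, hv, rfl⟩ ⟨v', hv', rfl⟩
    exact ⟨v + v', add_mem hv hv', map_add _ _ _⟩
  · rintro ⟨v, hv, rfl⟩
    obtain ⟨u, rfl⟩ := mem_Iy.1 hv
    rw [map_sum]
    exact Submodule.sum_mem _ fun s _ => Submodule.mem_iSup_of_mem s ⟨_, (hπ.y h s _).symm⟩

end

variable {O K β R : Type} [CommRing O] [IsDomain O] [IsDiscreteValuationRing O] [Group K]
  [Fintype β] [CommRing R] [Algebra O R] {M Y : ℕ → Type}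
  [∀ n, AddCommGroup (M n)] [∀ n, Module O (M n)] [∀ n, Module R (M n)]
  [∀ n, IsScalarTower O R (M n)] [∀ n, AddCommGroup (Y n)] [∀ n, Module O (Y n)]
  [∀ n, Module R (Y n)] [∀ n, IsScalarTower O R (Y n)] {e r : ℕ}

variable (β) in
/-- free modules `M n` of finite level, their quotients `Y n` by the central generators, which
form a tower -/
structure Tw (k : Fin e ⊕ Fin r → K) (N : ℕ → Subgroup K) (lv : ℕ → ℕ)
    (ρ : ∀ n, K →* Module.End O (M n)) (σ : ∀ n, K →* Module.End O (Y n))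
    (φ : ∀ n, M n →ₗ[R] Y n) (τ : ∀ n, Y (n + 1) →ₗ[R] Y n) : Prop where
  le : ∀ n, n ≤ lv n
  adm : ∀ n, Adm N (lv n) (ρ n)
  free : ∀ n, ∃ z : β → M n, Gen (ρ n) z ∧ Ind N (lv n) (ρ n) z
  φe : ∀ n γ w, φ n (ρ n γ w) = σ n γ (φ n w)
  φs : ∀ n, Function.Surjective (φ n)
  φk : ∀ n w, φ n w = 0 ↔ w ∈ Aug (ρ n) k
  τe : ∀ n γ w, τ n (σ (n + 1) γ w) = σ n γ (τ n w)
  τs : ∀ n, Function.Surjective (τ n)
  τk : ∀ n w, τ n w = 0 → w ∈ Fr (σ (n + 1)) 1

/-- the inverse limit -/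
def Li (τ : ∀ n, Y (n + 1) →ₗ[R] Y n) : Submodule R (∀ n, Y n) where
  carrier := {w | ∀ n, τ n (w (n + 1)) = w n}
  zero_mem' := fun n => map_zero _
  add_mem' := fun {a b} ha hb n => by rw [Pi.add_apply, map_add, ha, hb, Pi.add_apply]
  smul_mem' := fun c a ha n => by rw [Pi.smul_apply, map_smul, ha, Pi.smul_apply]

variable [DecidableEq β]

/-- the maps from the free module over the completed group ring -/
structure Out (lam : K →* Module.End O (PS O (Fin e ⊕ Fin r))) (lv : ℕ → ℕ)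
    (ρ : ∀ n, K →* Module.End O (M n)) (φ : ∀ n, M n →ₗ[R] Y n) (τ : ∀ n, Y (n + 1) →ₗ[R] Y n)
    (π : ∀ n, (β → PS O (Fin e ⊕ Fin r)) →ₗ[O] M n)
    (π0 : (β → PS O (Fin e ⊕ Fin r)) →ₗ[O] Li τ) : Prop where
  isP : ∀ n, ∃ x, IsP lam (ρ n) x (π n)
  fr : ∀ n j, ∀ v ∈ Fl O (Fin e) r (β → PS O (Fin e ⊕ Fin r)) j, π n v ∈ Fr (ρ n) j
  fr' : ∀ n j, ∀ w ∈ Fr (ρ n) j,
    ∃ v ∈ Fl O (Fin e) r (β → PS O (Fin e ⊕ Fin r)) j, π n v = w
  ker : ∀ n v, π n v = 0 → v ∈ Fl O (Fin e) r (β → PS O (Fin e ⊕ Fin r)) (lv n)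
  val : ∀ v n, (π0 v).1 n = φ n (π n v)
  surj0 : Function.Surjective π0
  ker0 : ∀ v, π0 v = 0 ↔ v ∈ Iy O (Fin e) r (β → PS O (Fin e ⊕ Fin r)) Set.univ

variable {k : Fin e ⊕ Fin r → K} {N : ℕ → Subgroup K} {lv : ℕ → ℕ}
  {ρ : ∀ n, K →* Module.End O (M n)} {σ : ∀ n, K →* Module.End O (Y n)}
  {φ : ∀ n, M n →ₗ[R] Y n} {τ : ∀ n, Y (n + 1) →ₗ[R] Y n}
  {lam : K →* Module.End O (PS O (Fin e ⊕ Fin r))}

omit [DecidableEq β] in
theorem Tw.admY (h : Tw β k N lv ρ σ φ τ) (n : ℕ) : Adm N (lv n) (σ n) := by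
  refine ⟨fun γ hγ => LinearMap.ext fun w => ?_, fun c hc w => ?_⟩
  · obtain ⟨w, rfl⟩ := h.φs n w
    rw [← h.φe, (h.adm n).triv γ hγ]; rfl
  · obtain ⟨w, rfl⟩ := h.φs n w
    rw [← LinearMap.map_smul_of_tower, (h.adm n).tor c hc, map_zero]

theorem aug_le {M : Type} [AddCommGroup M] [Module O M] (ρ : K →* Module.End O M) :
    Aug ρ k ≤ Fr ρ 1 := iSup_le fun s => by
  rintro _ ⟨w, rfl⟩
  exact St.sub_mem _ trivial

/-- **towers** -/
theorem Tw.out [Cf O] {p : ℕ} (hp : p.Prime) (hU : RT.Unf p k N) (hR : RegX k N lam)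
    (h : Tw β k N lv ρ σ φ τ) : ∃ π π0, Out (β := β) lam lv ρ φ τ π π0 := by
  have hfin : ∀ t, Finite (K ⧸ N t) := fun t => Nat.finite_of_card_ne_zero (by
    rw [← Subgroup.index, (un_of_unf hU).idx hp]; exact pow_ne_zero _ hp.ne_zero)
  choose z hz1 hz2 using h.free
  have hzY : ∀ n, Gen (σ n) fun b => φ n (z n b) := fun n =>
    (hz1 n).map ((φ n).restrictScalars O) (h.φe n) (h.φs n)
  choose l hl using h.τs
  let xY : ∀ n, β → Y n := fun n =>
    Nat.rec (motive := fun n => β → Y n) (fun b => φ 0 (z 0 b)) (fun n x b => l n (x b)) n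
  have hxY : ∀ n b, τ n (xY (n + 1) b) = xY n b := fun n b => hl n _
  have gY : ∀ n, Gen (σ n) (xY n) := by
    intro n
    induction n with
    | zero => exact hzY 0
    | succ n ih =>
      obtain ⟨j, hj⟩ := hR.fr_bot (h.admY (n + 1)) (hzY (n + 1))
      exact Gen.lift ((τ n).restrictScalars O) (h.τe n) (h.τk n)
        (by simpa only [LinearMap.restrictScalars_apply, hxY] using ih) hj
  choose x hx using fun n b => h.φs n (xY n b)
  have gM : ∀ n, Gen (ρ n) (x n) := fun n => by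
    obtain ⟨j, hj⟩ := hR.fr_bot (h.adm n) (hz1 n)
    exact Gen.lift ((φ n).restrictScalars O) (h.φe n) (fun w hw => aug_le _ ((h.φk n w).1 hw))
      (by simpa only [LinearMap.restrictScalars_apply, hx] using gY n) hj
  choose π a1 a2 a3 a4 using fun n => hR.pm_free (h.adm n) ⟨z n, hz1 n, hz2 n⟩ (gM n)
  have s1 : ∀ n, Function.Surjective (π n) := fun n w => (a3 n 0 w trivial).imp fun _ h => h.2
  have b1 : ∀ n, IsP lam (σ n) (xY n) ((φ n).restrictScalars O ∘ₗ π n) := fun n => by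
    simpa only [LinearMap.restrictScalars_apply, hx] using
      (a1 n).comp ((φ n).restrictScalars O) (h.φe n)
  have b2 : ∀ v n, τ n (φ (n + 1) (π (n + 1) v)) = φ n (π n v) := fun v n => by
    have h1 := (b1 (n + 1)).comp ((τ n).restrictScalars O) (h.τe n)
    simp only [LinearMap.restrictScalars_apply, hxY] at h1
    exact LinearMap.congr_fun (h1.unique hR.toReg (b1 n)) v
  let π0 : (β → PS O (Fin e ⊕ Fin r)) →ₗ[O] Li τ :=
    { toFun := fun v => ⟨fun n => φ n (π n v), b2 v⟩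
      map_add' := fun a b => Subtype.ext (funext fun n => by simp)
      map_smul' := fun c a => Subtype.ext (funext fun n => by simp) }
  refine ⟨π, π0, fun n => ⟨_, a1 n⟩, a2, a3, a4, fun _ _ => rfl, fun w => ?_, fun v => ⟨fun hv => ?_,
    fun hv => Subtype.ext (funext fun n => (h.φk n _).2
      (((a1 n).aug hR.toReg (s1 n)).2 ⟨v, hv, rfl⟩))⟩⟩
  · choose u hu using fun n => ((h.φs n).comp (s1 n)) (w.1 n)
    have := PL.base_ps O (Fin e ⊕ Fin r)
    obtain ⟨v, hv⟩ := PL.mod_lim (A := PS O (Fin e ⊕ Fin r)) (hyperfilter ℕ) u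
    refine ⟨v, Subtype.ext (funext fun t => ?_)⟩
    obtain ⟨j, hj⟩ := (a1 t).cts
    obtain ⟨n, h1, h2⟩ := ((hv j).and (Nat.hyperfilter_le_atTop (eventually_ge_atTop t))).exists
    have h3 := hj _ h1
    rw [map_sub, sub_eq_zero] at h3
    show φ t (π t v) = w.1 t
    rw [h3]
    exact Nat.decreasingInduction (motive := fun t _ => φ t (π t (u n)) = w.1 t)
      (fun t _ ih => by rw [← b2, ih, w.2]) (hu n) h2
  · refine PL.Fl_clo _ fun j => ?_
    obtain ⟨u, hu, e⟩ := ((a1 j).aug hR.toReg (s1 j)).1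
      ((h.φk j _).1 (congrFun (congrArg Subtype.val hv) j))
    exact ⟨u, hu, Fl_anti (h.le j) (a4 j _ (by rw [map_sub, e, sub_self]))⟩

variable {π : ∀ n, (β → PS O (Fin e ⊕ Fin r)) →ₗ[O] M n}
  {π0 : (β → PS O (Fin e ⊕ Fin r)) →ₗ[O] Li τ}

theorem Out.surj (h : Out lam lv ρ φ τ π π0) (n : ℕ) : Function.Surjective (π n) :=
  fun w => (h.fr' n 0 w trivial).imp fun _ h => h.2

theorem Out.eqv (h : Out lam lv ρ φ τ π π0) (n : ℕ) (γ : K) (v : β → PS O (Fin e ⊕ Fin r)) :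
    π n (fun b => lam γ (v b)) = ρ n γ (π n v) := (h.isP n).elim fun _ h => h.eqv γ v

theorem Out.eqv0 (h : Out lam lv ρ φ τ π π0) (hT : Tw β k N lv ρ σ φ τ) (γ : K)
    (v : β → PS O (Fin e ⊕ Fin r)) (n : ℕ) :
    (π0 fun b => lam γ (v b)).1 n = σ n γ ((π0 v).1 n) := by
  rw [h.val, h.val, h.eqv, hT.φe]

/-- elements which commute with the group -/
theorem Out.com [IsLocalRing R] (h : Out lam lv ρ φ τ π π0) {a : R}
    (ha : ∀ n γ (w : M n), a • ρ n γ w = ρ n γ (a • w)) :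
    Com (Bop k lam β) (fun n => (π n).toAddMonoidHom) a := fun n i v v' e => by
  obtain ⟨x, hx⟩ := h.isP n
  have e' : a • π n v = π n v' := e
  show a • π n _ = π n _
  rw [hx.bop, hx.bop, smul_sub, ha, e']

/-- **the data of finite level** -/
theorem Out.lev [IsLocalRing R] (h : Out lam lv ρ φ τ π π0) (hR : RT.Reg k N lam)
    (hT : Tw β k N lv ρ σ φ τ) {y : Fin r → R}
    (hy : ∀ n s (w : M n), y s • w = ρ n (k (Sum.inr s)) w - w)
    (fil : ∀ n (a : R) j, ∀ w ∈ Fr (ρ n) j, a • w ∈ Fr (ρ n) j)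
    (cont : ∃ c : ℕ, ∀ n, ∀ a ∈ maximalIdeal R ^ c, ∀ j, ∀ w ∈ Fr (ρ n) j,
      a • w ∈ Fr (ρ n) (j + 1))
    {L : ∀ n, Submodule R (M n)}
    (gen : ∃ b : ℕ, ∀ n, ∃ g : Fin b → M n, L n = Submodule.span R (Set.range g))
    (stab : ∀ n i, ∀ w ∈ L n, ρ n (k (Sum.inl i)) w ∈ L n) {N0 : Set (Li τ)}
    (onto : ∀ n, ∀ w ∈ N0, ∃ m ∈ L n, φ n m = w.1 n) :
    Lev O r (Bop k lam β) (algebraMap O R) y M (fun n => (π n).toAddMonoidHom) L (Li τ)
      π0.toAddMonoidHom N0 := by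
  have key : ∀ n v v', φ n (π n v) = φ n (π n v') → ∃ u, π n u = π n v ∧ π0 u = π0 v' := by
    intro n v v' e
    obtain ⟨x, hx⟩ := h.isP n
    obtain ⟨u, hu, e'⟩ := (hx.aug hR (h.surj n)).1
      ((hT.φk n (π n v - π n v')).1 (by rw [map_sub, e, sub_self]))
    exact ⟨u + v', by rw [map_add, e', sub_add_cancel],
      by rw [map_add, (h.ker0 u).2 hu, zero_add]⟩
  refine ⟨h.surj, fun n v hv => Fl_anti (hT.le n) (h.ker n v hv), fun n o v => ?_,
    fun n s v => ?_, fun n a j v hv => ?_, cont.imp fun c hc n a ha j v hv => ?_, gen,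
    fun n i v hv => ?_, h.ker0, fun n a v v' e => ?_, fun n w hw => ?_⟩
  · exact (algebraMap_smul R o _).trans (pi_C (π n) o v).symm
  · obtain ⟨x, hx⟩ := h.isP n
    exact (hy n s _).trans (hx.y hR s v).symm
  · exact (h.fr' n j _ (fil n a j _ (h.fr n j v hv))).imp fun _ h => ⟨h.1, h.2.symm⟩
  · exact (h.fr' n _ _ (hc n a ha j _ (h.fr n j v hv))).imp fun _ h => ⟨h.1, h.2.symm⟩
  · obtain ⟨x, hx⟩ := h.isP n
    show π n _ ∈ L n
    rw [hx.bop]
    exact sub_mem (stab n i _ hv) hv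
  · obtain ⟨w, hw⟩ := h.surj0 (a • π0 v)
    have e' : a • π n v = π n v' := e
    obtain ⟨u, h1, h2⟩ := key n v' w (by
      rw [← e', map_smul, ← h.val, ← h.val, hw]; rfl)
    refine ⟨u - v', Fl_anti (hT.le n) (h.ker n _ (by rw [map_sub, h1, sub_self])), ?_⟩
    show a • π0 v = π0 _
    rw [add_sub_cancel, h2, hw]
  · obtain ⟨m, hm, e⟩ := onto n w hw
    obtain ⟨v, rfl⟩ := h.surj n m
    obtain ⟨v', rfl⟩ := h.surj0 w
    obtain ⟨u, h1, h2⟩ := key n v v' (e.trans (h.val v' n))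
    exact ⟨u, h1 ▸ hm, h2⟩

end Vale.Agent.P022K.Iw
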