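import Vale.Agent.P022K.Iw.Reg
import Vale.Agent.P022K.RT.St

/-!
# P022K, block Iw: row IWA, with the maps from free modules of any rank
-/

set_option linter.all false

noncomputable section

namespace Vale.Agent.P022K.Iw

open IsLocalRing MvPowerSeries
open Vale.Agent.P022D.CA.Cpl
open Vale.Agent.P022D.Core (PS y1)
open Vale.Agent.P022K.PL (Cf Fl Op)

section

variable {O Γ ι : Type} [CommRing O] [IsLocalRing O] [Fintype ι] [Group Γ] {p : ℕ} {g : ι → Γ}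
  {N : ℕ → Subgroup Γ} {l : List ι} {L : Γ →* Module.End O (MvPowerSeries ι O)}

theorem Ok.evE (h : Ok O l p g N) (hL : ∀ t γ f, Rp g N t l γ f (L γ f)) (t : ℕ) (γ : Γ)
    (f : MvPowerSeries ι O) :
    Ev l (ρE O N t) g (L γ f) = ρE O N t γ * Ev l (ρE O N t) g f :=
  hL t γ f _ _ (adm_E (h.uni.nor t))

section

variable {M : Type} [AddCommGroup M] [Module O M] {ρ : Γ →* Module.End O M} {t : ℕ}
  {f f' : MvPowerSeries ι O}

theorem Ok.ap_gen (h : Ok O l p g N) (ha : Adm N t ρ) {i : ι} {j : ℕ} (hf : f ∈ mA O ι ^ j)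
    (e : Ev l ρ g f' = ρ (g i) * Ev l ρ g f) : Deg ρ (j + 2) (Ev l ρ g (f' - f - X i * f)) := by
  rw [map_sub, map_sub, e, ← sub_one_mul]
  exact h.deg_X ha i j f hf

theorem Ok.fil_gen (h : Ok O l p g N) (ha : Adm N t ρ) {γ : Γ} {s j : ℕ} (hγ : γ ∈ N s)
    (hf : f ∈ mA O ι ^ j) (e : Ev l ρ g f' = ρ γ * Ev l ρ g f) :
    Deg ρ (j + s + 1) (Ev l ρ g (f' - f)) := by
  rw [map_sub, e, ← sub_one_mul]
  exact (Deg.mul (d := s + 1) (le_degS h.uni h.mem ha s hγ) (h.deg_ev ha j f hf)).mono (by omega)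

theorem Ok.cen_gen (h : Ok O l p g N) (ha : Adm N t ρ) {i : ι} (hc : ∀ k, Commute (g i) (g k))
    (e : Ev l ρ g f' = ρ (g i) * Ev l ρ g f) : Ev l ρ g f' = Ev l ρ g ((1 + X i) * f) := by
  rw [e, add_mul, one_mul, map_add, h.ev_cen ha i hc]
  noncomm_ring

end

theorem Ok.L_ap (h : Ok O l p g N) (hL : ∀ t γ f, Rp g N t l γ f (L γ f)) (i : ι) {j : ℕ}
    {f : MvPowerSeries ι O} (hf : f ∈ mA O ι ^ j) :
    L (g i) f - f - X i * f ∈ mA O ι ^ (j + 2) :=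
  h.mem_of_deg (h.ap_gen (adm_E (h.uni.nor _)) hf (h.evE hL _ _ _))

theorem Ok.L_fil (h : Ok O l p g N) (hL : ∀ t γ f, Rp g N t l γ f (L γ f)) {t : ℕ} {γ : Γ}
    (hγ : γ ∈ N t) {j : ℕ} {f : MvPowerSeries ι O} (hf : f ∈ mA O ι ^ j) :
    L γ f - f ∈ mA O ι ^ (j + t + 1) :=
  h.mem_of_deg (h.fil_gen (adm_E (h.uni.nor _)) hγ hf (h.evE hL _ _ _))

variable [IsHausdorff (mA O ι) (MvPowerSeries ι O)]

theorem Ok.L_cen (h : Ok O l p g N) (hL : ∀ t γ f, Rp g N t l γ f (L γ f)) (i : ι)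
    (hc : ∀ k, Commute (g i) (g k)) (f : MvPowerSeries ι O) : L (g i) f = (1 + X i) * f :=
  h.sep fun t => h.cen_gen (adm_E (h.uni.nor t)) hc (h.evE hL _ _ _)

theorem Ok.L_pw (h : Ok O l p g N) (hL : ∀ t γ f, Rp g N t l γ f (L γ f)) (c : ι → ℕ) :
    L (mon l g c) 1 = pw O c :=
  h.sep fun t => by
    rw [h.evE hL, h.ev_one (adm_E (h.uni.nor t)), mul_one, h.ev_pw (adm_E (h.uni.nor t))]

theorem Ok.L_den (h : Ok O l p g N) (hL : ∀ t γ f, Rp g N t l γ f (L γ f)) (j : ℕ)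
    (f : MvPowerSeries ι O) :
    ∃ c : Γ →₀ O, f - c.sum (fun γ o => o • L γ 1) ∈ mA O ι ^ j := by
  have h1 := ind_pw (Submodule.span O (Set.range fun γ => L γ 1) ⊔
    (mA O ι ^ j).restrictScalars O) j (fun c => Submodule.mem_sup_left
      (Submodule.subset_span ⟨_, h.L_pw hL c⟩)) (fun f hf => Submodule.mem_sup_right hf) f
  obtain ⟨y, hy, z, hz, rfl⟩ := Submodule.mem_sup.1 h1
  obtain ⟨c, rfl⟩ := Finsupp.mem_span_range_iff_exists_finsupp.1 hy
  exact ⟨c, by rwa [add_sub_cancel_left]⟩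

end

theorem mem_Fl {O κ : Type} [CommRing O] [IsLocalRing O] {r j : ℕ} {a : PS O (κ ⊕ Fin r)} :
    a ∈ Fl O κ r (PS O (κ ⊕ Fin r)) j ↔ a ∈ mA O (κ ⊕ Fin r) ^ j := by
  rw [Fl, smul_eq_mul, Ideal.mul_top]

theorem mem_Fl_pi {O κ β : Type} [CommRing O] [IsLocalRing O] [Fintype β] {r j : ℕ}
    {v : β → PS O (κ ⊕ Fin r)} :
    v ∈ Fl O κ r (β → PS O (κ ⊕ Fin r)) j ↔ ∀ b, v b ∈ Fl O κ r (PS O (κ ⊕ Fin r)) j := by
  classical
  refine ⟨fun h b => ?_, fun h => ?_⟩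
  · refine Submodule.smul_induction_on h (fun a ha w _ => Submodule.smul_mem_smul ha trivial)
      fun x y hx hy => add_mem hx hy
  · rw [← Finset.univ_sum_single v]
    refine Submodule.sum_mem _ fun b _ => ?_
    have e : (Pi.single b (v b) : β → PS O (κ ⊕ Fin r)) = v b • Pi.single b 1 := by
      rw [← Pi.single_smul, smul_eq_mul, mul_one]
    rw [e]
    exact Submodule.smul_mem_smul (mem_Fl.1 (h b)) trivial

variable {O K : Type} [CommRing O] [IsLocalRing O] [Group K] {e r : ℕ}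

/-- the order of the generators -/
def ls (e r : ℕ) : List (Fin e ⊕ Fin r) := List.ofFn Sum.inl ++ List.ofFn Sum.inr

theorem mon_ls {Q : Type} [Monoid Q] (k : Fin e ⊕ Fin r → Q) (a : Fin e ⊕ Fin r → ℕ) :
    mon (ls e r) k a = RT.mon k a := by
  simp only [mon, ls, RT.mon, List.map_append, List.prod_append, List.map_ofFn, Function.comp_def]

theorem ls_nodup : (ls e r).Nodup := by
  refine List.Nodup.append (List.nodup_ofFn.2 Sum.inl_injective)
    (List.nodup_ofFn.2 Sum.inr_injective) fun x h1 h2 => ?_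
  obtain ⟨i, rfl⟩ := List.mem_ofFn.1 h1
  obtain ⟨j, e⟩ := List.mem_ofFn.1 h2
  cases e

theorem mem_ls (i : Fin e ⊕ Fin r) : i ∈ ls e r := by
  rcases i with i | i <;> simp [ls]

theorem un_of_unf {p : ℕ} {k : Fin e ⊕ Fin r → K} {N : ℕ → Subgroup K} (h : RT.Unf p k N) :
    Un (ls e r) p k N :=
  ⟨ls_nodup, mem_ls, h.nor, h.anti, fun i j => h.pow j i, fun j γ => by
    simpa only [mon_ls] using h.ex j γ, fun j a a' => by
    simpa only [mon_ls] using h.inj j a a', h.com⟩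

/-- an equivariant continuous map from the free module of rank `β` -/
structure IsP {β : Type} [Fintype β] [DecidableEq β] (lam : K →* Module.End O (PS O (Fin e ⊕ Fin r)))
    {M : Type} [AddCommGroup M] [Module O M] (ρ : K →* Module.End O M) (x : β → M)
    (π : (β → PS O (Fin e ⊕ Fin r)) →ₗ[O] M) : Prop where
  one : ∀ b, π (Pi.single b 1) = x b
  eqv : ∀ γ v, π (fun b => lam γ (v b)) = ρ γ (π v)
  cts : ∃ j, ∀ v ∈ Fl O (Fin e) r (β → PS O (Fin e ⊕ Fin r)) j, π v = 0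

/-- the regular representation, with more properties -/
structure RegX (k : Fin e ⊕ Fin r → K) (N : ℕ → Subgroup K)
    (lam : K →* Module.End O (PS O (Fin e ⊕ Fin r))) : Prop extends RT.Reg k N lam where
  fil : ∀ t, ∀ γ ∈ N t, ∀ j a, a ∈ Fl O (Fin e) r (PS O (Fin e ⊕ Fin r)) j →
    lam γ a - a ∈ Fl O (Fin e) r (PS O (Fin e ⊕ Fin r)) (j + t + 1)
  pm : ∀ (M β : Type) [AddCommGroup M] [Module O M] [Fintype β] [DecidableEq β]
    (ρ : K →* Module.End O M) (t : ℕ), Adm N t ρ → ∀ x : β → M, ∃ π, IsP lam ρ x π ∧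
      (∀ j, ∀ v ∈ Fl O (Fin e) r (β → PS O (Fin e ⊕ Fin r)) j, π v ∈ Fr ρ j) ∧
      (Gen ρ x → ∀ j, ∀ w ∈ Fr ρ j,
        ∃ v ∈ Fl O (Fin e) r (β → PS O (Fin e ⊕ Fin r)) j, π v = w) ∧
      (Ind N t ρ x → ∀ v, π v = 0 → v ∈ Fl O (Fin e) r (β → PS O (Fin e ⊕ Fin r)) t)

theorem regX [IsNoetherianRing O] (hO : IsAdicComplete (maximalIdeal O) O) {p : ℕ}
    (hp0 : p.Prime) (hp : (p : O) ∈ maximalIdeal O) {k : Fin e ⊕ Fin r → K}
    {N : ℕ → Subgroup K} (hU : RT.Unf p k N) : ∃ lam, RegX (O := O) k N lam := by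
  have h : Ok O (ls e r) p k N := ⟨un_of_unf hU, hp0, hp⟩
  have : IsAdicComplete (mA O (Fin e ⊕ Fin r)) (MvPowerSeries (Fin e ⊕ Fin r) O) :=
    isAdicCompleteV hO
  obtain ⟨L, hL⟩ := h.exists_reg
  have hc : ∀ s γ, Commute (k (Sum.inr s)) γ := fun s γ =>
    (Subgroup.mem_center_iff.1 (hU.cen s) γ).symm
  have cen : ∀ s a, L (k (Sum.inr s)) a = (1 + y1 O (Fin e) s) * a :=
    fun s a => h.L_cen hL _ (fun _ => hc s _) a
  have hV : ∀ (β : Type) [Fintype β] j (v : β → PS O (Fin e ⊕ Fin r)),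
      v ∈ Fl O (Fin e) r (β → PS O (Fin e ⊕ Fin r)) j ↔ v ∈ VF O (Fin e ⊕ Fin r) β j :=
    fun β _ j v => by simp only [mem_Fl_pi, mem_Fl, mem_VF]
  refine ⟨L, ⟨⟨fun i s v => ?_, fun i j v hv => mem_Fl.2 (h.L_ap hL _ (mem_Fl.1 hv))⟩, cen,
    fun γ j a ha => mem_Fl.2 (h.L_fil hL (h.uni.top γ) (mem_Fl.1 ha)),
    fun j => ⟨j, fun γ hγ a => mem_Fl.2 (Ideal.pow_le_pow_right (by omega)
      (h.L_fil hL hγ (j := 0) (by simp)))⟩,
    fun j a => (h.L_den hL j a).imp fun c hc => mem_Fl.2 hc, fun M _ _ ρ m c h1 h2 => ?_⟩,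
    fun t γ hγ j a ha => mem_Fl.2 (h.L_fil hL hγ (mem_Fl.1 ha)), fun M β _ _ _ _ ρ t ha x => ?_⟩
  · have h1 : L (k (Sum.inl i)) (L (k (Sum.inr s)) v) = L (k (Sum.inr s)) (L (k (Sum.inl i)) v) := by
      rw [← Module.End.mul_apply, ← map_mul, ← (hc s _).eq, map_mul, Module.End.mul_apply]
    rw [cen, cen, add_mul, add_mul, one_mul, one_mul, map_add, add_right_inj] at h1
    show L (k (Sum.inl i)) (y1 O (Fin e) s * v) - y1 O (Fin e) s * v =
      y1 O (Fin e) s * (L (k (Sum.inl i)) v - v)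
    rw [h1, mul_sub]
  · have ha : Adm N (m + c) ρ := ⟨fun γ hγ => h2 γ (hU.anti (Nat.le_add_right _ _) hγ),
      fun o ho => h1 o (Ideal.pow_le_pow_right (Nat.le_add_left _ _) ho)⟩
    refine ⟨bd (Fin e ⊕ Fin r) p (m + c), fun w => ⟨LinearMap.applyₗ w ∘ₗ Ev (ls e r) ρ k,
      ?_, fun γ a => ?_, fun a haa => ?_⟩⟩
    · show Ev (ls e r) ρ k 1 w = w
      rw [h.ev_one ha]; rfl
    · show Ev (ls e r) ρ k (L γ a) w = _
      rw [hL _ γ a M ρ ha]; rfl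
    · show Ev (ls e r) ρ k a w = 0
      rw [h.high ha a (mem_Fl.1 haa)]; rfl
  · refine ⟨Pm (ls e r) ρ k x, ⟨fun b => ?_, fun γ v => ?_,
      _, fun v hv => h.pm_high ha x ((hV β _ v).1 hv)⟩,
      fun j v hv => h.pm_mem ha x ((hV β _ v).1 hv), fun hx j w hw => ?_,
      fun hx v hv => (hV β _ v).2 (h.ker ha hx hv)⟩
    · rw [Pm_single, h.ev_one ha]; rfl
    · rw [Pm_apply, Pm_apply, map_sum]
      exact Finset.sum_congr rfl fun b _ => by rw [hL _ γ _ M ρ ha]; rfl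
    · obtain ⟨v, hv, e⟩ := h.fr_le ha hx j hw
      exact ⟨v, (hV β _ v).2 hv, e⟩

/-- **row IWA** -/
theorem iwa : RT.IWA := fun O K _ _ _ hO _ p e r hp k N h1 h2 =>
  (regX hO.cpl hp.out h1 h2).imp fun _ h => h.toReg

variable {k : Fin e ⊕ Fin r → K} {N : ℕ → Subgroup K}
  {lam : K →* Module.End O (PS O (Fin e ⊕ Fin r))} {β : Type} [Fintype β] [DecidableEq β]
  {M : Type} [AddCommGroup M] [Module O M] {ρ : K →* Module.End O M}

/-- the operators on the free module of rank `β` -/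
def Bop (k : Fin e ⊕ Fin r → K) (lam : K →* Module.End O (PS O (Fin e ⊕ Fin r))) (β : Type)
    (i : Fin e) : (β → PS O (Fin e ⊕ Fin r)) →+ (β → PS O (Fin e ⊕ Fin r)) :=
  ((lam (k (Sum.inl i)) - 1).compLeft β).toAddMonoidHom

omit [Fintype β] [DecidableEq β] [IsLocalRing O] in
theorem Bop_apply (i : Fin e) (v : β → PS O (Fin e ⊕ Fin r)) :
    Bop k lam β i v = (fun b => lam (k (Sum.inl i)) (v b)) - v := rfl

omit [DecidableEq β] in
theorem op_pi (h : RT.Reg k N lam) : Op O (Fin e) r (Bop k lam β) :=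
  ⟨fun i s v => funext fun b => h.op.y i s (v b), fun i j v hv =>
    mem_Fl_pi.2 fun b => h.op.ap i j (v b) (mem_Fl_pi.1 hv b)⟩

/-- continuous maps which agree on the translates of the basis are equal -/
theorem ext_den (h : RT.Reg k N lam) {π π' : (β → PS O (Fin e ⊕ Fin r)) →ₗ[O] M} {j : ℕ}
    (hj : ∀ v ∈ Fl O (Fin e) r (β → PS O (Fin e ⊕ Fin r)) j, π v = π' v)
    (h1 : ∀ γ b, π (Pi.single b (lam γ 1)) = π' (Pi.single b (lam γ 1))) : π = π' := by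
  refine LinearMap.pi_ext fun b a => ?_
  obtain ⟨c, hc⟩ := h.den j a
  have h3 : π (Pi.single b (c.sum fun γ o => o • lam γ 1)) =
      π' (Pi.single b (c.sum fun γ o => o • lam γ 1)) := by
    show (π ∘ₗ LinearMap.single O _ b) _ = (π' ∘ₗ LinearMap.single O _ b) _
    rw [Finsupp.sum, map_sum, map_sum]
    refine Finset.sum_congr rfl fun γ _ => ?_
    rw [map_smul, map_smul]
    exact congrArg _ (h1 γ b)
  rw [← sub_add_cancel a (c.sum fun γ o => o • lam γ 1), Pi.single_add, map_add, map_add, h3,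
    hj _ (mem_Fl_pi.2 fun b' => ?_)]
  by_cases e : b' = b
  · rw [e, Pi.single_eq_same]; exact hc
  · rw [Pi.single_eq_of_ne e]; exact zero_mem _

theorem IsP.single {x : β → M} {π : (β → PS O (Fin e ⊕ Fin r)) →ₗ[O] M} (h : IsP lam ρ x π)
    (γ : K) (b : β) : π (Pi.single b (lam γ 1)) = ρ γ (x b) := by
  rw [← h.one, ← h.eqv]
  congr 1
  funext b'
  by_cases e : b' = b
  · rw [e, Pi.single_eq_same, Pi.single_eq_same]
  · rw [Pi.single_eq_of_ne e, Pi.single_eq_of_ne e, map_zero]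

theorem Fl_anti {V : Type} [AddCommGroup V] [Module (PS O (Fin e ⊕ Fin r)) V] {i j : ℕ}
    (h : i ≤ j) : Fl O (Fin e) r V j ≤ Fl O (Fin e) r V i :=
  Submodule.smul_mono (Ideal.pow_le_pow_right h) le_rfl

/-- uniqueness -/
theorem IsP.unique (hR : RT.Reg k N lam) {x : β → M}
    {π π' : (β → PS O (Fin e ⊕ Fin r)) →ₗ[O] M} (h : IsP lam ρ x π) (h' : IsP lam ρ x π') :
    π = π' := by
  obtain ⟨j, hj⟩ := h.cts
  obtain ⟨j', hj'⟩ := h'.cts
  exact ext_den hR (j := j + j') (fun v hv => by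
    rw [hj v (Fl_anti (Nat.le_add_right _ _) hv), hj' v (Fl_anti (Nat.le_add_left _ _) hv)])
    fun γ b => by rw [h.single, h'.single]

/-- composition with an equivariant map -/
theorem IsP.comp {x : β → M} {π : (β → PS O (Fin e ⊕ Fin r)) →ₗ[O] M} (h : IsP lam ρ x π)
    {M' : Type} [AddCommGroup M'] [Module O M'] {ρ' : K →* Module.End O M'} (φ : M →ₗ[O] M')
    (hφ : ∀ γ w, φ (ρ γ w) = ρ' γ (φ w)) : IsP lam ρ' (fun b => φ (x b)) (φ ∘ₗ π) :=
  ⟨fun b => congrArg φ (h.one b), fun γ v => (congrArg φ (h.eqv γ v)).trans (hφ _ _),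
    h.cts.imp fun _ hj v hv => (congrArg φ (hj v hv)).trans φ.map_zero⟩

theorem IsP.bop {x : β → M} {π : (β → PS O (Fin e ⊕ Fin r)) →ₗ[O] M} (h : IsP lam ρ x π)
    (i : Fin e) (v : β → PS O (Fin e ⊕ Fin r)) :
    π (Bop k lam β i v) = ρ (k (Sum.inl i)) (π v) - π v := by
  rw [Bop_apply, map_sub, h.eqv]

theorem IsP.y (hR : RT.Reg k N lam) {x : β → M} {π : (β → PS O (Fin e ⊕ Fin r)) →ₗ[O] M}
    (h : IsP lam ρ x π) (s : Fin r) (v : β → PS O (Fin e ⊕ Fin r)) :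
    π (y1 O (Fin e) s • v) = ρ (k (Sum.inr s)) (π v) - π v := by
  rw [← h.eqv, ← map_sub]
  congr 1
  funext b
  rw [Pi.sub_apply, hR.cen, add_mul, one_mul, add_sub_cancel_left, Pi.smul_apply, smul_eq_mul]

omit [Fintype β] [DecidableEq β] [IsLocalRing O] in
theorem pi_C (π : (β → PS O (Fin e ⊕ Fin r)) →ₗ[O] M)
    (o : O) (v : β → PS O (Fin e ⊕ Fin r)) :
    π ((C o : PS O (Fin e ⊕ Fin r)) • v) = o • π v := by
  rw [← map_smul]
  congr 1
  funext b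
  rw [Pi.smul_apply, Pi.smul_apply, smul_eq_C_mul, smul_eq_mul]

/-- maps which commute with the group preserve the radical filtration -/
theorem Fr.map {M' : Type} [AddCommGroup M'] [Module O M'] {ρ' : K →* Module.End O M'}
    (φ : M →ₗ[O] M') (hφ : ∀ γ w, φ (ρ γ w) = ρ' γ (φ w)) (a : ℕ)
    (h0 : ∀ w, φ w ∈ Fr ρ' a) : ∀ j, ∀ w ∈ Fr ρ j, φ w ∈ Fr ρ' (j + a)
  | 0, w, _ => by simpa using h0 w
  | j + 1, w, hw => by
    refine St.le (U := (Fr ρ' (j + 1 + a)).comap φ) (fun c hc v hv => ?_) (fun γ v hv => ?_) hw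
    · rw [Submodule.mem_comap, map_smul, Nat.add_right_comm]
      exact St.smul_mem hc (Fr.map φ hφ a h0 j v hv)
    · rw [Submodule.mem_comap, LinearMap.sub_apply, map_sub, hφ, Nat.add_right_comm]
      exact St.sub_mem γ (Fr.map φ hφ a h0 j v hv)

end Vale.Agent.P022K.Iw
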