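import Vale.Agent.P022K.Iw.Th

/-!
# P022K, block Iw: the maps to finite level and the regular representation
-/

set_option linter.all false

noncomputable section

namespace Vale.Agent.P022K.Iw

open IsLocalRing MvPowerSeries
open Vale.Agent.P022D.CA.Cpl

variable {O Γ M ι β : Type} [CommRing O] [IsLocalRing O] [Fintype ι] [Fintype β] [Group Γ]
  [AddCommGroup M] [Module O M] {ρ : Γ →* Module.End O M} {p : ℕ} {g : ι → Γ}
  {N : ℕ → Subgroup Γ} {t : ℕ} {l : List ι}

/-- the map to a module with a family of elements -/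
def Pm (l : List ι) (ρ : Γ →* Module.End O M) (g : ι → Γ) (x : β → M) :
    (β → MvPowerSeries ι O) →ₗ[O] M :=
  ∑ k, LinearMap.applyₗ (x k) ∘ₗ Ev l ρ g ∘ₗ LinearMap.proj k

theorem Pm_apply (x : β → M) (v : β → MvPowerSeries ι O) :
    Pm l ρ g x v = ∑ k, Ev l ρ g (v k) (x k) := by
  simp [Pm]

variable (O ι β) in
/-- the adic filtration -/
def VF (s : ℕ) : Submodule O (β → MvPowerSeries ι O) :=
  Submodule.pi Set.univ fun _ => (mA O ι ^ s).restrictScalars O

omit [Fintype ι] [Fintype β] in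
theorem mem_VF {s : ℕ} {v : β → MvPowerSeries ι O} : v ∈ VF O ι β s ↔ ∀ k, v k ∈ mA O ι ^ s :=
  ⟨fun h k => h k trivial, fun h k _ => h k⟩

theorem Pm_single [DecidableEq β] (x : β → M) (k : β) (f : MvPowerSeries ι O) :
    Pm l ρ g x (Pi.single k f) = Ev l ρ g f (x k) := by
  rw [Pm_apply, Finset.sum_eq_single k (fun j _ hj => by simp [hj]) (by simp), Pi.single_eq_same]

theorem Ok.pm_mem (h : Ok O l p g N) (ha : Adm N t ρ) (x : β → M) {s : ℕ}
    {v : β → MvPowerSeries ι O} (hv : v ∈ VF O ι β s) : Pm l ρ g x v ∈ Fr ρ s := by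
  rw [Pm_apply]
  refine Submodule.sum_mem _ fun k _ => ?_
  simpa using h.deg_ev ha s _ (mem_VF.1 hv k) 0 (x k) trivial

theorem Ok.pm_high (h : Ok O l p g N) (ha : Adm N t ρ) (x : β → M)
    {v : β → MvPowerSeries ι O} (hv : v ∈ VF O ι β (bd ι p t)) : Pm l ρ g x v = 0 := by
  rw [Pm_apply]
  exact Finset.sum_eq_zero fun k _ => by rw [h.high ha _ (mem_VF.1 hv k)]; rfl

theorem Ok.fr_le_aux (h : Ok O l p g N) (ha : Adm N t ρ) {x : β → M} (hx : Gen ρ x) :
    ∀ s, Fr ρ s ≤ (VF O ι β s).map (Pm l ρ g x) ⊔ Fr ρ (s + 1)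
  | 0 => by
    classical
    show ⊤ ≤ _
    rw [← hx, Submodule.span_le]
    rintro _ ⟨⟨γ, k⟩, rfl⟩
    have e : ρ γ (x k) = Pm l ρ g x (Pi.single k 1) + (ρ γ - 1) (x k) := by
      rw [Pm_single, h.ev_one ha]; simp
    show ρ γ (x k) ∈ _
    rw [e]
    exact Submodule.add_mem_sup (Submodule.mem_map_of_mem (mem_VF.2 fun _ => by simp))
      (St.sub_mem γ trivial)
  | s + 1 => by
    have ih := h.fr_le_aux ha hx s
    refine St.le (fun c hc v hv => ?_) fun γ v hv => ?_
    · obtain ⟨_, ⟨f, hf, rfl⟩, w, hw, rfl⟩ := Submodule.mem_sup.1 (ih hv)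
      rw [smul_add, ← map_smul]
      refine Submodule.add_mem_sup (Submodule.mem_map_of_mem (mem_VF.2 fun k => ?_))
        (St.smul_mem hc hw)
      rw [Pi.smul_apply, smul_eq_C_mul, pow_succ']
      exact Ideal.mul_mem_mul (by rw [mem_max_iff, constantCoeff_C]; exact hc) (mem_VF.1 hf k)
    · obtain ⟨_, ⟨f, hf, rfl⟩, w, hw, rfl⟩ := Submodule.mem_sup.1 (ih hv)
      obtain ⟨c, hc⟩ := exists_lin h.uni h.mem ha γ
      have e : (ρ γ - 1) (Pm l ρ g x f) = (ρ γ - 1 - ∑ i, c i • (ρ (g i) - 1)) (Pm l ρ g x f) +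
          ∑ i, c i • (Pm l ρ g x (fun k => X i * f k) +
            ∑ k, ((ρ (g i) - 1) * Ev l ρ g (f k) - Ev l ρ g (X i * f k)) (x k)) := by
        rw [LinearMap.sub_apply (ρ γ - 1), LinearMap.sum_apply, sub_add, eq_comm, sub_eq_self,
          sub_eq_zero]
        refine Finset.sum_congr rfl fun i _ => ?_
        rw [LinearMap.smul_apply, Pm_apply, Pm_apply, map_sum, ← Finset.sum_add_distrib]
        congr 1
        exact Finset.sum_congr rfl fun k _ => by simp
      rw [map_add, e]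
      refine add_mem (add_mem (Submodule.mem_sup_right (hc s _ (h.pm_mem ha x hf)))
        (Submodule.sum_mem _ fun i _ => Submodule.smul_mem _ _ (Submodule.add_mem_sup
          (Submodule.mem_map_of_mem (mem_VF.2 fun k => ?_)) (Submodule.sum_mem _ fun k _ => ?_))))
        (Submodule.mem_sup_right (St.sub_mem γ hw))
      · rw [pow_succ']
        exact Ideal.mul_mem_mul (X_mem i) (mem_VF.1 hf k)
      · simpa using h.deg_X ha i s _ (mem_VF.1 hf k) 0 (x k) trivial

omit [Fintype ι] [Fintype β] in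
theorem VF_anti {s s' : ℕ} (k : s ≤ s') : VF O ι β s' ≤ VF O ι β s :=
  fun _ hv => mem_VF.2 fun j => Ideal.pow_le_pow_right k (mem_VF.1 hv j)

theorem Ok.fr_bot (h : Ok O l p g N) (ha : Adm N t ρ) {x : β → M} (hx : Gen ρ x) :
    Fr ρ (bd ι p t) = ⊥ :=
  nak h.uni h.pr h.mem ha _ (fun γ v hv => Deg.r γ _ v hv) ((h.fr_le_aux ha hx _).trans
    (sup_le (Submodule.map_le_iff_le_comap.2 fun v hv => by
      rw [Submodule.mem_comap, h.pm_high ha x hv]; exact zero_mem _) le_rfl))

theorem Ok.fr_le (h : Ok O l p g N) (ha : Adm N t ρ) {x : β → M} (hx : Gen ρ x) (s : ℕ) :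
    Fr ρ s ≤ (VF O ι β s).map (Pm l ρ g x) := by
  have key : ∀ m, Fr ρ s ≤ (VF O ι β s).map (Pm l ρ g x) ⊔ Fr ρ (s + m) := by
    intro m
    induction m with
    | zero => exact le_sup_right
    | succ m ih =>
      exact ih.trans (sup_le le_sup_left ((h.fr_le_aux ha hx _).trans (sup_le_sup_right
        (Submodule.map_mono (VF_anti (Nat.le_add_right _ _))) _)))
  refine (key (bd ι p t)).trans (sup_le le_rfl ((Fr.anti (Nat.le_add_left _ _)).trans ?_))
  rw [h.fr_bot ha hx]
  exact bot_le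

theorem Ok.ker (h : Ok O l p g N) (ha : Adm N t ρ) {x : β → M} (hx : Ind N t ρ x)
    {v : β → MvPowerSeries ι O} (hv : Pm l ρ g x v = 0) : v ∈ VF O ι β t := by
  classical
  let B : Finset (ι → ℕ) := Fintype.piFinset fun _ => Finset.range (p ^ t)
  have hB : ∀ a, a ∈ B ↔ ∀ i, a i < p ^ t := fun a => by simp [B]
  let U : Submodule O (MvPowerSeries ι O) :=
    (mA O ι ^ t).restrictScalars O ⊓ LinearMap.ker (Ev l ρ g)
  have h1 : ∀ f, f ∈ Submodule.span O (Set.range fun a : B => pw O a.1) ⊔ U := by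
    refine ind_pw _ (t + bd ι p t) (fun c => ?_) fun f hf => Submodule.mem_sup_right
      ⟨Ideal.pow_le_pow_right (Nat.le_add_right _ _) hf,
        h.high ha f (Ideal.pow_le_pow_right (Nat.le_add_left _ _) hf)⟩
    rw [← add_sub_cancel (pw O fun i => c i % p ^ t) (pw O c)]
    refine Submodule.add_mem_sup (Submodule.subset_span ⟨⟨_, (hB _).2 fun i =>
      Nat.mod_lt _ (pow_pos h.pr.pos t)⟩, rfl⟩) ⟨pw_mod h.mem t c, ?_⟩
    show Ev l ρ g _ = 0
    rw [map_sub, h.ev_pw ha, h.ev_pw ha, map_mon, map_mon, mon_mod (fun i => by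
      rw [← map_pow, ha.triv _ (h.uni.pw i t)]), sub_self]
  have h2 : ∀ f, ∃ c : B → O, f - ∑ a, c a • pw O a.1 ∈ U := fun f => by
    obtain ⟨y, hy, z, hz, rfl⟩ := Submodule.mem_sup.1 (h1 f)
    obtain ⟨c, rfl⟩ := (Submodule.mem_span_range_iff_exists_fun O).1 hy
    exact ⟨c, by rwa [add_sub_cancel_left]⟩
  choose c hc using fun k => h2 (v k)
  let w : B → Γ := fun a => mon l g a.1
  have hw : ∀ a a', (w a)⁻¹ * w a' ∈ N t → a = a' := fun a a' e =>
    Subtype.ext (h.uni.wd_inj t ((hB _).1 a.2) ((hB _).1 a'.2) e)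
  have hw' : Function.Injective w := fun a a' e => hw a a' (by rw [e, inv_mul_cancel]; exact one_mem _)
  have h3 := hx (Finset.univ.image w) (fun γ k => Function.extend w (c k) 0 γ) (by
    intro γ hγ γ' hγ' e
    obtain ⟨a, -, rfl⟩ := Finset.mem_image.1 hγ
    obtain ⟨a', -, rfl⟩ := Finset.mem_image.1 hγ'
    rw [hw a a' e]) (by
    rw [Finset.sum_image fun a _ a' _ e => hw' e, Finset.sum_comm, ← hv, Pm_apply]
    refine Finset.sum_congr rfl fun k _ => ?_
    have h4 : Ev l ρ g _ = 0 := (hc k).2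
    rw [map_sub, sub_eq_zero] at h4
    rw [h4, map_sum, LinearMap.sum_apply]
    refine Finset.sum_congr rfl fun a _ => ?_
    rw [hw'.extend_apply, map_smul, h.ev_pw ha, LinearMap.smul_apply])
  refine mem_VF.2 fun k => ?_
  have h5 : ∑ a, c k a • pw O a.1 ∈ mA O ι ^ t := Ideal.sum_mem _ fun a _ => by
    have h6 := h3 _ (Finset.mem_image_of_mem w (Finset.mem_univ a)) k
    rw [hw'.extend_apply] at h6
    rw [smul_eq_C_mul]
    exact Ideal.mul_mem_right _ _ (C_mem_pow h6)
  simpa using Ideal.add_mem _ (hc k).1 h5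

variable (O N t) in
/-- the group ring of level `t` -/
abbrev Et : Type := (Γ ⧸ N t) →₀ (O ⧸ maximalIdeal O ^ t)

variable (O N t) in
/-- the regular representation of level `t` -/
def ρE : Γ →* Module.End O (Et O N t) where
  toFun γ := Finsupp.lmapDomain _ O (γ • ·)
  map_one' := by ext; simp
  map_mul' a b := by ext; simp [mul_smul]

theorem ρE_single (γ : Γ) (q : Γ ⧸ N t) (c : O ⧸ maximalIdeal O ^ t) :
    ρE O N t γ (Finsupp.single q c) = Finsupp.single (γ • q) c := Finsupp.mapDomain_single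

variable (O N t) in
/-- the generator -/
def xE : Unit → Et O N t := fun _ => Finsupp.single ((1 : Γ) : Γ ⧸ N t) 1

theorem ρE_xE (γ : Γ) (k : Unit) : ρE O N t γ (xE O N t k) = Finsupp.single (γ : Γ ⧸ N t) 1 := by
  rw [xE, ρE_single, MulAction.Quotient.smul_coe, smul_eq_mul, mul_one]

theorem adm_E (hN : (N t).Normal) : Adm N t (ρE O N t) where
  triv γ hγ := by
    refine Finsupp.lhom_ext fun q c => ?_
    obtain ⟨δ, rfl⟩ := QuotientGroup.mk_surjective q
    rw [ρE_single, MulAction.Quotient.smul_coe, smul_eq_mul, Module.End.one_apply,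
      QuotientGroup.eq.2 (show (γ * δ)⁻¹ * δ ∈ N t by
        simpa [mul_assoc] using hN.conj_mem' _ (inv_mem hγ) δ)]
  tor c hc v := by
    ext q
    obtain ⟨y, hy⟩ := Ideal.Quotient.mk_surjective (v q)
    rw [Finsupp.smul_apply, ← hy, Finsupp.zero_apply]
    exact Ideal.Quotient.eq_zero_iff_mem.2 (Ideal.mul_mem_right _ _ hc)

theorem gen_E : Gen (ρE O N t) (xE O N t) := by
  rw [Gen, eq_top_iff]
  intro v hv
  clear hv
  induction v using Finsupp.induction_linear with
  | zero => exact zero_mem _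
  | add a b ha hb => exact add_mem ha hb
  | single q c =>
    obtain ⟨δ, rfl⟩ := QuotientGroup.mk_surjective q
    obtain ⟨y, rfl⟩ := Ideal.Quotient.mk_surjective c
    have e : Finsupp.single (δ : Γ ⧸ N t) (Ideal.Quotient.mk (maximalIdeal O ^ t) y) =
        y • ρE O N t δ (xE O N t ()) := by
      rw [ρE_xE, Finsupp.smul_single, ← Ideal.Quotient.algebraMap_eq, Algebra.algebraMap_eq_smul_one]
    rw [e]
    exact Submodule.smul_mem _ _ (Submodule.subset_span ⟨(δ, ()), rfl⟩)

theorem ind_E : Ind N t (ρE O N t) (xE O N t) := by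
  intro s c hs h γ hγ k
  have h1 := DFunLike.congr_fun h (γ : Γ ⧸ N t)
  rw [Finsupp.finset_sum_apply, Finset.sum_eq_single γ (fun δ hδ e => by
    rw [Fintype.sum_unique, ρE_xE, Finsupp.smul_apply, Finsupp.single_eq_of_ne, smul_zero]
    exact fun e' => e (hs γ hγ δ hδ (QuotientGroup.eq.1 e')).symm) (fun e => absurd hγ e),
    Fintype.sum_unique, ρE_xE, Finsupp.smul_apply, Finsupp.single_eq_same,
    ← Algebra.algebraMap_eq_smul_one] at h1
  exact Ideal.Quotient.eq_zero_iff_mem.1 h1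

theorem Ok.mem_of_E (h : Ok O l p g N) {f : MvPowerSeries ι O} (hf : Ev l (ρE O N t) g f = 0) :
    f ∈ mA O ι ^ t :=
  mem_VF.1 (h.ker (adm_E (h.uni.nor t)) ind_E (v := fun _ => f) (by
    rw [Pm_apply, Fintype.sum_unique, hf]; rfl)) ()

theorem Ok.mem_of_deg (h : Ok O l p g N) {f : MvPowerSeries ι O}
    (hf : Deg (ρE O N t) t (Ev l (ρE O N t) g f)) : f ∈ mA O ι ^ t := by
  have ha := adm_E (O := O) (h.uni.nor t)
  have h1 := hf 0 (xE O N t ()) trivial
  rw [zero_add] at h1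
  obtain ⟨v, hv, e⟩ := h.fr_le ha gen_E t h1
  have h2 := h.ker ha ind_E (v := (fun _ => f) - v) (by
    rw [map_sub, e, Pm_apply, Fintype.sum_unique, sub_self])
  simpa using Ideal.add_mem _ (mem_VF.1 h2 ()) (mem_VF.1 hv ())

theorem Ok.sep [IsHausdorff (mA O ι) (MvPowerSeries ι O)] (h : Ok O l p g N)
    {f f' : MvPowerSeries ι O} (hf : ∀ t, Ev l (ρE O N t) g f = Ev l (ρE O N t) g f') : f = f' := by
  rw [← sub_eq_zero]
  refine IsHausdorff.haus (inferInstance : IsHausdorff (mA O ι) (MvPowerSeries ι O)) _ fun t => ?_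
  rw [SModEq.zero, smul_eq_mul, Ideal.mul_top]
  exact h.mem_of_E (by rw [map_sub, hf, sub_self])

variable (l N t g) in
/-- `f'` represents `γ f` at level `t` -/
def Rp (γ : Γ) (f f' : MvPowerSeries ι O) : Prop :=
  ∀ (M : Type) [AddCommGroup M] [Module O M] (ρ : Γ →* Module.End O M), Adm N t ρ →
    Ev l ρ g f' = ρ γ * Ev l ρ g f

theorem Ok.exists_rp (h : Ok O l p g N) (t : ℕ) (γ : Γ) (f : MvPowerSeries ι O) :
    ∃ f', Rp g N t l γ f f' := by
  let P : Submodule O (MvPowerSeries ι O) :=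
    { carrier := {f | ∃ f', Rp g N t l γ f f'}
      zero_mem' := ⟨0, fun M _ _ ρ _ => by simp⟩
      add_mem' := by
        rintro a b ⟨a', ha⟩ ⟨b', hb⟩
        exact ⟨a' + b', fun M _ _ ρ k => by rw [map_add, map_add, ha M ρ k, hb M ρ k, mul_add]⟩
      smul_mem' := by
        rintro c a ⟨a', ha⟩
        exact ⟨c • a', fun M _ _ ρ k => by rw [map_smul, map_smul, ha M ρ k, mul_smul_comm]⟩ }
  refine ind_pw P (bd ι p t) (fun c => ?_) (fun f hf => ⟨0, fun M _ _ ρ k => ?_⟩) f
  · obtain ⟨a, ha⟩ := h.uni.ex t (γ * mon l g c)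
    refine ⟨pw O a, fun M _ _ ρ k => ?_⟩
    rw [h.ev_pw k, h.ev_pw k, ← map_mul, ← mul_inv_cancel_left (mon l g a) (γ * _),
      map_mul ρ (mon l g a), k.triv _ ha, mul_one]
  · rw [h.high k f hf, map_zero, mul_zero]

theorem Ok.exists_lim [IsPrecomplete (mA O ι) (MvPowerSeries ι O)] (h : Ok O l p g N) (γ : Γ)
    (f : MvPowerSeries ι O) : ∃ f', ∀ t, Rp g N t l γ f f' := by
  choose F hF using fun t => h.exists_rp t γ f
  obtain ⟨f', hf'⟩ := IsPrecomplete.prec (inferInstance : IsPrecomplete (mA O ι) _) (f := F)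
    fun {m n} hmn => by
      rw [SModEq.sub_mem, smul_eq_mul, Ideal.mul_top]
      refine h.mem_of_E ?_
      rw [map_sub, hF m _ _ (adm_E (h.uni.nor m)),
        hF n _ _ ((adm_E (h.uni.nor m)).mono h.uni hmn), sub_self]
  refine ⟨f', fun t M _ _ ρ k => ?_⟩
  have h1 := hf' (t + bd ι p t)
  rw [SModEq.sub_mem, smul_eq_mul, Ideal.mul_top] at h1
  have h2 := h.high k _ (Ideal.pow_le_pow_right (Nat.le_add_left _ _) h1)
  rw [map_sub, sub_eq_zero] at h2
  rw [← h2, hF _ M ρ (k.mono h.uni (Nat.le_add_right _ _))]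

/-- **the regular representation** -/
theorem Ok.exists_reg [IsAdicComplete (mA O ι) (MvPowerSeries ι O)] (h : Ok O l p g N) :
    ∃ L : Γ →* Module.End O (MvPowerSeries ι O), ∀ t γ f, Rp g N t l γ f (L γ f) := by
  choose F hF using h.exists_lim
  have k : ∀ γ f t, Ev l (ρE O N t) g (F γ f) = ρE O N t γ * Ev l (ρE O N t) g f :=
    fun γ f t => hF γ f t _ _ (adm_E (h.uni.nor t))
  exact ⟨{ toFun := fun γ =>
            { toFun := F γ
              map_add' := fun a b => h.sep fun t => by rw [map_add, k, k, k, map_add, mul_add]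
              map_smul' := fun c a => h.sep fun t => by
                rw [k, map_smul, RingHom.id_apply, map_smul, k, mul_smul_comm] }
           map_one' := LinearMap.ext fun f => h.sep fun t => by
             show Ev l _ g (F 1 f) = Ev l _ g f
             rw [k, map_one, one_mul]
           map_mul' := fun a b => LinearMap.ext fun f => h.sep fun t => by
             show Ev l _ g (F (a * b) f) = Ev l _ g (F a (F b f))
             rw [k, k, k, map_mul, mul_assoc] }, fun t γ f => hF γ f t⟩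

end Vale.Agent.P022K.Iw
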