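import Vale.Agent.P022K.Iw.Deg
import Vale.Agent.P022D.CA.Cpl

/-!
# P022K, block Iw: evaluation of power series at ordered monomials
-/

set_option linter.all false

noncomputable section

namespace Vale.Agent.P022K.Iw

open IsLocalRing MvPowerSeries
open Vale.Agent.P022D.CA.Cpl

variable {O Γ M ι E : Type} [CommRing O] [Fintype ι] [Ring E] [Algebra O E]

variable {l : List ι}

theorem sum_lst (hl : l.Nodup) (hl' : ∀ i, i ∈ l) (a : ι →₀ ℕ) : (l.map a).sum = a.degree := by
  classical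
  rw [← List.sum_toFinset _ hl, Finsupp.degree_eq_sum]
  exact Finset.sum_congr (Finset.eq_univ_of_forall fun i => List.mem_toFinset.2 (hl' i))
    fun _ _ => rfl

variable (O l) in
open Classical in
/-- evaluation of a power series -/
def Th (b : ι → E) : MvPowerSeries ι O →ₗ[O] E :=
  if h : (Function.support fun a : ι →₀ ℕ => mon l b a).Finite then
    ∑ a ∈ h.toFinset, (coeff a).smulRight (mon l b a) else 0

theorem Th_apply {b : ι → E} (S : Finset (ι →₀ ℕ)) (hS : ∀ a ∉ S, mon l b a = 0)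
    (f : MvPowerSeries ι O) : Th O l b f = ∑ a ∈ S, coeff a f • mon l b a := by
  have h : (Function.support fun a : ι →₀ ℕ => mon l b a).Finite :=
    S.finite_toSet.subset fun a ha => by_contra fun k => ha (hS a k)
  rw [Th, dif_pos h, LinearMap.sum_apply]
  refine Finset.sum_subset (fun a ha => by_contra fun k => h.mem_toFinset.1 ha (hS a k))
    fun a _ ha => ?_
  rw [h.mem_toFinset, Function.mem_support, not_not] at ha
  simp [ha]

/-- the box -/
def box (ι : Type) [Fintype ι] (T : ℕ) : Finset (ι →₀ ℕ) := by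
  classical
  exact Finset.Iic (Finsupp.equivFunOnFinite.symm fun _ => T)

theorem mem_box {T : ℕ} {a : ι →₀ ℕ} : a ∈ box ι T ↔ ∀ i, a i ≤ T := by
  classical
  rw [box, Finset.mem_Iic]
  rfl

theorem mon_zero (hl' : ∀ i, i ∈ l) {b : ι → E} {T : ℕ} (hb : ∀ i, b i ^ T = 0) :
    ∀ a ∉ box ι T, mon l b a = 0 := by
  intro a ha
  rw [mem_box, not_forall] at ha
  obtain ⟨i, hi⟩ := ha
  refine List.prod_eq_zero (List.mem_map.2 ⟨i, hl' i, ?_⟩)
  exact pow_eq_zero_of_le (by omega) (hb i)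

theorem Th_monomial (hl' : ∀ i, i ∈ l) {b : ι → E} {T : ℕ} (hb : ∀ i, b i ^ T = 0) (a : ι →₀ ℕ) (c : O) :
    Th O l b (monomial a c) = c • mon l b a := by
  rw [Th_apply _ (mon_zero hl' hb), Finset.sum_eq_single a
    (fun a' _ h => by rw [coeff_monomial_ne h, zero_smul])
    (fun h => by rw [mon_zero hl' hb a h, smul_zero]), coeff_monomial_same]

theorem Th_one (hl' : ∀ i, i ∈ l) {b : ι → E} {T : ℕ} (hb : ∀ i, b i ^ T = 0) : Th O l b 1 = 1 := by
  rw [← monomial_zero_one, Th_monomial hl' hb, one_smul]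
  simp [mon]

omit [Fintype ι] in
theorem prod_map_add (i : ι) {f f' f'' : ι → E} (h1 : f i = f' i + f'' i)
    (h2 : ∀ k, k ≠ i → f' k = f k ∧ f'' k = f k) : ∀ l : List ι, l.Nodup → i ∈ l →
      (l.map f).prod = (l.map f').prod + (l.map f'').prod
  | [], _, h => by simp at h
  | k :: l, hl, h => by
    rw [List.nodup_cons] at hl
    simp only [List.map_cons, List.prod_cons]
    by_cases e : k = i
    · subst e
      rw [h1, List.map_congr_left (f := f') (g := f) fun j hj => (h2 j fun e => hl.1 (e ▸ hj)).1,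
        List.map_congr_left (f := f'') (g := f) fun j hj => (h2 j fun e => hl.1 (e ▸ hj)).2,
        add_mul]
    · rw [prod_map_add i h1 h2 l hl.2 ((List.mem_cons.1 h).resolve_left (Ne.symm e)),
        (h2 k e).1, (h2 k e).2, mul_add]

variable (O) in
/-- the group-like monomials -/
def pw (c : ι → ℕ) : MvPowerSeries ι O := ∏ i, (1 + X i) ^ c i

theorem Th_mix (hl : l.Nodup) (hl' : ∀ i, i ∈ l) {b : ι → E} {T : ℕ} (hb : ∀ i, b i ^ T = 0) :
    ∀ (n : ℕ) (c : ι → ℕ),
    ∑ i, c i = n → ∀ a : ι →₀ ℕ, Th O l b (monomial a 1 * pw O c) =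
      (l.map fun i => b i ^ a i * (1 + b i) ^ c i).prod
  | 0, c, hc, a => by
    have : c = 0 := funext fun i => (Finset.sum_eq_zero_iff.1 hc) i (Finset.mem_univ i)
    subst this
    simp [pw, Th_monomial hl' hb, mon]
  | n + 1, c, hc, a => by
    classical
    obtain ⟨i, -, hi⟩ := Finset.exists_ne_zero_of_sum_ne_zero (s := Finset.univ) (f := c)
      (by omega)
    obtain ⟨m, hm⟩ := Nat.exists_eq_succ_of_ne_zero hi
    have h1 : ∑ k, Function.update c i m k = n := by
      rw [Finset.sum_update_of_mem (Finset.mem_univ i)]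
      rw [← Finset.add_sum_erase _ _ (Finset.mem_univ i), hm] at hc
      rw [Finset.sdiff_singleton_eq_erase]
      omega
    have h2 : pw O c = (1 + X i) * pw O (Function.update c i m) := by
      rw [pw, pw, ← Finset.mul_prod_erase _ _ (Finset.mem_univ i),
        ← Finset.mul_prod_erase _ _ (Finset.mem_univ i), hm, Function.update_self, pow_succ',
        mul_assoc]
      congr 2
      exact Finset.prod_congr rfl fun k hk => by
        rw [Function.update_of_ne (Finset.ne_of_mem_erase hk)]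
    rw [h2, ← mul_assoc, mul_add, mul_one, add_mul, X_def, monomial_mul_monomial, one_mul, map_add,
      Th_mix hl hl' hb n _ h1, Th_mix hl hl' hb n _ h1]
    refine (prod_map_add i ?_ (fun k hk => ?_) _ hl (hl' i)).symm
    · simp only [Function.update_self, Finsupp.add_apply, Finsupp.single_eq_same, hm]
      rw [pow_succ' (1 + b i), pow_succ (b i)]
      noncomm_ring
    · simp [hk, Finsupp.single_eq_of_ne hk]

theorem Th_pw (hl : l.Nodup) (hl' : ∀ i, i ∈ l) {b : ι → E} {T : ℕ} (hb : ∀ i, b i ^ T = 0)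
    (c : ι → ℕ) :
    Th O l b (pw O c) = mon l (fun i => 1 + b i) c := by
  have := Th_mix (O := O) hl hl' hb _ c rfl 0
  simpa [mon] using this

variable [IsLocalRing O]

variable (O ι) in
/-- the maximal ideal -/
abbrev mA : Ideal (MvPowerSeries ι O) := maximalIdeal (MvPowerSeries ι O)

/-- induction over monomials -/
theorem ind_mon (P : Submodule O (MvPowerSeries ι O)) (s T : ℕ)
    (h1 : ∀ (a : ι →₀ ℕ), ∀ c ∈ maximalIdeal O ^ (s - a.degree), monomial a c ∈ P)
    (h2 : ∀ f ∈ mA O ι ^ T, f ∈ P) : ∀ f ∈ mA O ι ^ s, f ∈ P := by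
  classical
  intro f hf
  have h3 : f - ∑ a ∈ box ι T, monomial a (coeff a f) ∈ mA O ι ^ T := by
    refine JI_le_pow T fun a => ?_
    by_cases ha : a ∈ box ι T
    · rw [map_sub, map_sum, Finset.sum_eq_single a
        (fun a' _ h => coeff_monomial_ne (Ne.symm h) _) (fun h => absurd ha h),
        coeff_monomial_same, sub_self]
      exact Ideal.zero_mem _
    · rw [mem_box, not_forall] at ha
      obtain ⟨i, hi⟩ := ha
      have := Finsupp.le_degree i a
      rw [show T - a.degree = 0 by omega, pow_zero, Ideal.one_eq_top]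
      trivial
  have := P.add_mem (h2 _ h3) (P.sum_mem fun a (_ : a ∈ box ι T) => h1 a _ (pow_le_JI s hf a))
  rwa [sub_add_cancel] at this

/-- induction over group-like monomials -/
theorem ind_pw (P : Submodule O (MvPowerSeries ι O)) (T : ℕ) (h1 : ∀ c, pw O c ∈ P)
    (h2 : ∀ f ∈ mA O ι ^ T, f ∈ P) (f : MvPowerSeries ι O) : f ∈ P := by
  refine ind_mon P 0 T (fun a c _ => ?_) h2 f (by simp)
  let Q := Algebra.adjoin O (Set.range fun i : ι => (1 + X i : MvPowerSeries ι O))
  have h3 : Subalgebra.toSubmodule Q ≤ P := by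
    rw [Algebra.adjoin_eq_span, Submodule.span_le]
    intro x hx
    obtain ⟨c, rfl⟩ := Submonoid.mem_closure_range_iff_of_fintype.1 hx
    exact h1 c
  refine h3 (show monomial a c ∈ Q from ?_)
  rw [monomial_eq']
  refine Q.mul_mem (Q.algebraMap_mem c) (Q.prod_mem fun i _ => Q.pow_mem ?_ _)
  have := Q.sub_mem (Algebra.subset_adjoin ⟨i, rfl⟩) Q.one_mem
  rwa [add_sub_cancel_left] at this

omit [Fintype ι] in
theorem X_mem (i : ι) : (X i : MvPowerSeries ι O) ∈ mA O ι := by
  rw [mem_max_iff, constantCoeff_X]; exact Ideal.zero_mem _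

theorem pow_pow_mem {R : Type} [CommRing R] {I : Ideal R} {p : ℕ} (hp : (p : R) ∈ I) {z : R}
    (hz : z - 1 ∈ I) : ∀ j : ℕ, z ^ p ^ j - 1 ∈ I ^ (j + 1)
  | 0 => by simpa using hz
  | j + 1 => by
    have ih := pow_pow_mem hp hz j
    have e : z ^ p ^ (j + 1) - 1 =
        (z ^ p ^ j - 1) * (∑ k ∈ Finset.range p, ((z ^ p ^ j) ^ k - 1) + p) := by
      rw [pow_succ, pow_mul, ← mul_geom_sum, Finset.sum_sub_distrib]
      simp
    rw [e, pow_succ I (j + 1)]
    refine Ideal.mul_mem_mul ih (I.add_mem (I.sum_mem fun k _ => ?_) hp)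
    have := sub_dvd_pow_sub_pow (z ^ p ^ j) 1 k
    rw [one_pow] at this
    exact I.mem_of_dvd this (Ideal.pow_le_self (Nat.succ_ne_zero j) ih)

theorem pw_mod {p : ℕ} (hp : (p : O) ∈ maximalIdeal O) (t : ℕ) (c : ι → ℕ) :
    pw O c - pw O (fun i => c i % p ^ t) ∈ mA O ι ^ t := by
  have hp' : (p : MvPowerSeries ι O) ∈ mA O ι := by rw [mem_max_iff, map_natCast]; exact hp
  rw [← Ideal.Quotient.eq, pw, pw, map_prod, map_prod]
  refine Finset.prod_congr rfl fun i _ => ?_
  rw [map_pow, map_pow]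
  refine pow_eq_pow_mod _ ?_
  rw [← map_pow, ← map_one (Ideal.Quotient.mk (mA O ι ^ t)), Ideal.Quotient.eq]
  exact Ideal.pow_le_pow_right (Nat.le_succ t)
    (pow_pow_mem hp' (by rw [add_sub_cancel_left]; exact X_mem i) t)

variable [Group Γ] [AddCommGroup M] [Module O M] {ρ : Γ →* Module.End O M} {p : ℕ} {g : ι → Γ}
  {N : ℕ → Subgroup Γ} {t : ℕ}

/-- the evaluation on a module -/
abbrev Ev (l : List ι) (ρ : Γ →* Module.End O M) (g : ι → Γ) :
    MvPowerSeries ι O →ₗ[O] Module.End O M :=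
  Th O l fun i => ρ (g i) - 1

/-- all the standing hypotheses -/
structure Ok (O : Type) [CommRing O] [IsLocalRing O] (l : List ι) (p : ℕ) (g : ι → Γ)
    (N : ℕ → Subgroup Γ) : Prop where
  uni : Un l p g N
  pr : p.Prime
  mem : (p : O) ∈ maximalIdeal O

omit [Fintype ι] in
theorem Ok.nil (h : Ok O l p g N) (ha : Adm N t ρ) (i : ι) :
    (ρ (g i) - 1) ^ (p ^ t * t + 1) = 0 := by
  obtain ⟨q, e⟩ := aug_pow (O := O) h.pr (u := ρ (g i)) (e := t) (by
    rw [← map_pow, ha.triv _ (h.uni.pw i t)])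
  rw [pow_succ', pow_mul, e, smul_pow]
  ext v
  rw [Module.End.mul_apply, LinearMap.smul_apply,
    ha.tor _ (Ideal.pow_mem_pow h.mem t), map_zero, LinearMap.zero_apply]

/-- a bound which depends only on the level -/
def bd (ι : Type) [Fintype ι] (p t : ℕ) : ℕ := t + Fintype.card ι * (p ^ t * t + 1)

theorem Ok.high (h : Ok O l p g N) (ha : Adm N t ρ) : ∀ f ∈ mA O ι ^ bd ι p t, Ev l ρ g f = 0 := by
  intro f hf
  rw [Th_apply _ (mon_zero h.uni.mem (h.nil ha))]
  refine Finset.sum_eq_zero fun a haa => ?_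
  have h1 : a.degree ≤ Fintype.card ι * (p ^ t * t + 1) := by
    rw [Finsupp.degree_eq_sum, ← smul_eq_mul, ← Finset.card_univ]
    exact Finset.sum_le_card_nsmul _ _ _ fun i _ => mem_box.1 haa i
  ext v
  exact ha.tor _ (Ideal.pow_le_pow_right (by unfold bd; omega) (pow_le_JI _ hf a)) _

theorem Ok.ev_one (h : Ok O l p g N) (ha : Adm N t ρ) : Ev l ρ g 1 = 1 := Th_one h.uni.mem (h.nil ha)

theorem Ok.ev_pw (h : Ok O l p g N) (ha : Adm N t ρ) (c : ι → ℕ) :
    Ev l ρ g (pw O c) = ρ (mon l g c) := by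
  rw [Th_pw h.uni.nd h.uni.mem (h.nil ha)]
  simp only [mon, map_list_prod, List.map_map, Function.comp_def, map_pow, add_sub_cancel]

/-- operators of degree at least `d` -/
def degM (ρ : Γ →* Module.End O M) (d : ℕ) : Submodule O (Module.End O M) where
  carrier := {u | Deg ρ d u}
  zero_mem' := Deg.zero
  add_mem' := Deg.add
  smul_mem' := fun c _ h => Deg.smul0 c h

theorem Ok.deg_ev (h : Ok O l p g N) (ha : Adm N t ρ) (s : ℕ) :
    ∀ f ∈ mA O ι ^ s, Deg ρ s (Ev l ρ g f) := by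
  refine ind_mon ((degM ρ s).comap (Ev l ρ g)) s (bd ι p t) (fun a c hc => ?_) fun f hf => ?_
  · show Deg ρ s (Ev l ρ g _)
    rw [Th_monomial h.uni.mem (h.nil ha)]
    have := Deg.smul _ hc (deg_mon (fun i => Deg.b (ρ := ρ) (g i)) a l)
    rw [sum_lst h.uni.nd h.uni.mem] at this
    exact this.mono (by omega)
  · show Deg ρ s (Ev l ρ g _)
    rw [h.high ha f hf]; exact Deg.zero

theorem Ok.deg_X (h : Ok O l p g N) (ha : Adm N t ρ) (i : ι) (s : ℕ) :
    ∀ f ∈ mA O ι ^ s, Deg ρ (s + 2) ((ρ (g i) - 1) * Ev l ρ g f - Ev l ρ g (X i * f)) := by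
  refine ind_mon ((degM ρ (s + 2)).comap (LinearMap.mulLeft O (ρ (g i) - 1) ∘ₗ Ev l ρ g -
    Ev l ρ g ∘ₗ LinearMap.mulLeft O (X i))) s (bd ι p t) (fun a c hc => ?_) fun f hf => ?_
  · show Deg ρ _ ((ρ (g i) - 1) * Ev l ρ g _ - Ev l ρ g (X i * _))
    rw [X_def, monomial_mul_monomial, one_mul, Th_monomial h.uni.mem (h.nil ha), Th_monomial h.uni.mem (h.nil ha),
      mul_smul_comm, ← smul_sub]
    have := Deg.smul _ hc (deg_mul_mon (fun i => Deg.b (ρ := ρ) (g i))
      (fun i k => deg_comm h.uni h.mem ha (g i) (g k)) i (a := a)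
      (a' := (Finsupp.single i 1 + a : ι →₀ ℕ)) (by simp [add_comm])
      (fun k hk => by simp [Finsupp.single_eq_of_ne hk]) _ h.uni.nd (h.uni.mem i))
    rw [sum_lst h.uni.nd h.uni.mem] at this
    exact this.mono (by omega)
  · show Deg ρ _ ((ρ (g i) - 1) * Ev l ρ g _ - Ev l ρ g (X i * _))
    rw [h.high ha f hf, h.high ha _ (Ideal.mul_mem_left _ _ hf), mul_zero, sub_zero]
    exact Deg.zero

theorem Ok.ev_cen (h : Ok O l p g N) (ha : Adm N t ρ) (i : ι) (hc : ∀ k, Commute (g i) (g k))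
    (f : MvPowerSeries ι O) : Ev l ρ g (X i * f) = (ρ (g i) - 1) * Ev l ρ g f := by
  refine ind_mon (LinearMap.eqLocus (Ev l ρ g ∘ₗ LinearMap.mulLeft O (X i))
    (LinearMap.mulLeft O (ρ (g i) - 1) ∘ₗ Ev l ρ g)) 0 (bd ι p t) (fun a c _ => ?_)
    (fun f hf => ?_) f (by simp)
  · show Ev l ρ g (X i * _) = (ρ (g i) - 1) * Ev l ρ g _
    rw [X_def, monomial_mul_monomial, one_mul, Th_monomial h.uni.mem (h.nil ha), Th_monomial h.uni.mem (h.nil ha),
      mul_smul_comm]
    congr 1
    refine (mul_mon (b := fun i => ρ (g i) - 1) i (pow_one _).symm (fun k => ?_)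
      (by simp [add_comm]) (fun k hk => by simp [Finsupp.single_eq_of_ne hk]) _ h.uni.nd
      (h.uni.mem i)).symm
    exact (((hc k).map ρ).sub_right (Commute.one_right _)).sub_left (Commute.one_left _)
  · show Ev l ρ g (X i * _) = (ρ (g i) - 1) * Ev l ρ g _
    rw [h.high ha f hf, h.high ha _ (Ideal.mul_mem_left _ _ hf), mul_zero]

end Vale.Agent.P022K.Iw
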